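import Vale.Agent.P361.Thermo

/-!
Finite-volume magnetization, convexity of the pressure, and the right derivative.
-/

namespace Vale.Agent.P361

open Matrix Filter Topology Finset
open scoped ComplexOrder Kronecker

/-- Total finite-volume magnetization `⟨M⟩`. -/
noncomputable def gibbsMag (n : ℕ) (Λ : Finset Site) (β h : ℝ) : ℝ :=
  (trace (NormedSpace.exp (expo n Λ β h) * magnetization n Λ)).re /
    (trace (NormedSpace.exp (expo n Λ β h))).re

theorem magnetization_isHermitian (n : ℕ) (Λ : Finset Site) :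
    (magnetization n Λ).IsHermitian := by
  rw [Matrix.IsHermitian, magnetization, Matrix.conjTranspose_sum]
  refine Finset.sum_congr rfl fun x _ => ?_
  exact siteOp_isHermitian x (spin_isHermitian n 2)

theorem expo_shift (n : ℕ) (Λ : Finset Site) (β h h' : ℝ) :
    expo n Λ β h' = expo n Λ β h + ((β * (h' - h) : ℝ) : ℂ) • magnetization n Λ := by
  unfold expo
  push_cast
  module

/-- Supporting line inequality for the logarithm of the partition function. -/
theorem log_trace_support (n : ℕ) (Λ : Finset Site) (β h h' : ℝ) :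
    Real.log (trace (NormedSpace.exp (expo n Λ β h))).re + β * (h' - h) * gibbsMag n Λ β h ≤
      Real.log (trace (NormedSpace.exp (expo n Λ β h'))).re := by
  have hY : (((β * (h' - h) : ℝ) : ℂ) • magnetization n Λ).IsHermitian := by
    rw [Matrix.IsHermitian, Matrix.conjTranspose_smul, magnetization_isHermitian n Λ]
    simp
  have h1 := peierls_bogoliubov (expo_isHermitian n Λ β h) hY
  rw [← expo_shift] at h1
  refine le_trans (le_of_eq ?_) h1
  congr 1
  rw [Matrix.mul_smul, Matrix.trace_smul, smul_eq_mul, Complex.re_ofReal_mul]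
  unfold gibbsMag
  ring

theorem finPressure_def (n : ℕ) (Λ : Finset Site) (β h : ℝ) :
    finPressure n Λ β h = (β * Λ.card)⁻¹ * Real.log
      (trace (NormedSpace.exp (expo n Λ β h))).re := rfl

theorem finPressure_support (n : ℕ) {Λ : Finset Site} (hΛ : Λ.Nonempty) {β : ℝ} (hβ : 0 < β)
    (h h' : ℝ) :
    finPressure n Λ β h + (h' - h) * (gibbsMag n Λ β h / Λ.card) ≤ finPressure n Λ β h' := by
  have h1 := log_trace_support n Λ β h h'
  have hc : (0 : ℝ) < Λ.card := by exact_mod_cast hΛ.card_pos
  rw [finPressure_def, finPressure_def]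
  have h2 := mul_le_mul_of_nonneg_left h1 (a := (β * Λ.card)⁻¹) (by positivity)
  refine le_trans (le_of_eq ?_) h2
  field_simp

theorem convexOn_of_support {f g : ℝ → ℝ} (hfg : ∀ x y, f x + (y - x) * g x ≤ f y) :
    ConvexOn ℝ Set.univ f := by
  refine ⟨convex_univ, ?_⟩
  intro x _ y _ a b ha hb hab
  simp only [smul_eq_mul]
  set z := a * x + b * y with hz
  have h1 := hfg z x
  have h2 := hfg z y
  have h3 : a * (x - z) + b * (y - z) = 0 := by
    have : a * (x - z) + b * (y - z) = (a * x + b * y) - (a + b) * z := by ring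
    rw [this, hab, hz]; ring
  calc f z = a * (f z + (x - z) * g z) + b * (f z + (y - z) * g z) := by
        have : a * (f z + (x - z) * g z) + b * (f z + (y - z) * g z) =
          (a + b) * f z + (a * (x - z) + b * (y - z)) * g z := by ring
        rw [this, hab, h3]; ring
    _ ≤ a * f x + b * f y := by
        exact add_le_add (mul_le_mul_of_nonneg_left h1 ha) (mul_le_mul_of_nonneg_left h2 hb)

theorem finPressure_convex (n : ℕ) {Λ : Finset Site} (hΛ : Λ.Nonempty) {β : ℝ} (hβ : 0 < β) :
    ConvexOn ℝ Set.univ (finPressure n Λ β) :=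
  convexOn_of_support (finPressure_support n hΛ hβ)

theorem box_nonempty (N : ℕ) : (box N).Nonempty := by
  rw [← Finset.card_pos, card_box]; positivity

theorem pressure_convex (n : ℕ) {β : ℝ} (hβ : 0 < β) :
    ConvexOn ℝ Set.univ (pressure n β) := by
  refine ⟨convex_univ, ?_⟩
  intro x _ y _ a b ha hb hab
  refine le_of_tendsto_of_tendsto' (pressure_tendsto n hβ (a • x + b • y))
    (((pressure_tendsto n hβ x).const_smul a).add ((pressure_tendsto n hβ y).const_smul b))
    fun N => ?_
  exact (finPressure_convex n (box_nonempty N) hβ).2 (Set.mem_univ x) (Set.mem_univ y) ha hb hab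

/-- The right derivative of the pressure exists at every field. -/
theorem pressure_hasRightDeriv (n : ℕ) {β : ℝ} (hβ : 0 < β) (h : ℝ) :
    HasDerivWithinAt (pressure n β) (derivWithin (pressure n β) (Set.Ioi h) h) (Set.Ioi h) h :=
  (pressure_convex n hβ).hasDerivWithinAt_rightDeriv_of_mem_interior (by simp)

theorem spontMag_hasDeriv (n : ℕ) {β : ℝ} (hβ : 0 < β) :
    HasDerivWithinAt (pressure n β) (spontMag n β) (Set.Ioi 0) 0 :=
  pressure_hasRightDeriv n hβ 0

theorem rightDeriv_le_slope' (n : ℕ) {β : ℝ} (hβ : 0 < β) {h₀ h : ℝ} (hh : h₀ < h) :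
    derivWithin (pressure n β) (Set.Ioi h₀) h₀ ≤ (pressure n β h - pressure n β h₀) / (h - h₀) := by
  have := (pressure_convex n hβ).rightDeriv_le_slope_of_mem_interior (x := h₀) (y := h)
    (by simp) (Set.mem_univ _) hh
  rwa [slope_def_field] at this

theorem gibbsMag_ge_slope (n : ℕ) {Λ : Finset Site} (hΛ : Λ.Nonempty) {β : ℝ} (hβ : 0 < β)
    {h₀ h : ℝ} (hh : h₀ < h) :
    (finPressure n Λ β h - finPressure n Λ β h₀) / (h - h₀) ≤ gibbsMag n Λ β h / Λ.card := by
  have h1 := finPressure_support n hΛ hβ h h₀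
  rw [div_le_iff₀ (by linarith)]
  linarith

/-- Eventually the finite-volume magnetization at field `h > h₀` exceeds any number below the
right derivative of the pressure at `h₀`. -/
theorem eventually_lt_gibbsMag (n : ℕ) {β : ℝ} (hβ : 0 < β) {h₀ h : ℝ} (hh : h₀ < h) {m : ℝ}
    (hm : m < derivWithin (pressure n β) (Set.Ioi h₀) h₀) :
    ∀ᶠ N : ℕ in atTop, m < gibbsMag n (box N) β h / (box N).card := by
  have h1 := lt_of_lt_of_le hm (rightDeriv_le_slope' n hβ hh)
  have h2 : Tendsto (fun N => (finPressure n (box N) β h - finPressure n (box N) β h₀) / (h - h₀))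
      atTop (𝓝 ((pressure n β h - pressure n β h₀) / (h - h₀))) :=
    ((pressure_tendsto n hβ h).sub (pressure_tendsto n hβ h₀)).div_const _
  filter_upwards [(tendsto_order.1 h2).1 m h1] with N hN
  exact lt_of_lt_of_le hN (gibbsMag_ge_slope n (box_nonempty N) hβ hh)

theorem eventually_lt_gibbsMag_zero (n : ℕ) {β : ℝ} (hβ : 0 < β) {h : ℝ} (hh : 0 < h) {m : ℝ}
    (hm : m < spontMag n β) :
    ∀ᶠ N : ℕ in atTop, m < gibbsMag n (box N) β h / (box N).card :=
  eventually_lt_gibbsMag n hβ hh hm

end Vale.Agent.P361
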