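import Mathlib.Algebra.GroupWithZero.Action.Pointwise.Finset
import Mathlib.Algebra.Order.Chebyshev
import Mathlib.Algebra.Order.Floor.Semifield
import Mathlib.Algebra.Order.Quantale
import Mathlib.Algebra.Ring.Action.Pointwise.Finset
import Mathlib.Analysis.Complex.Polynomial.Basic
import Mathlib.Analysis.Convex.Continuous
import Mathlib.Analysis.Normed.Algebra.MatrixExponential
import Mathlib.Analysis.Normed.Group.Tannery
import Mathlib.Analysis.Real.Pi.Bounds
import Mathlib.Analysis.SumIntegralComparisons
import Mathlib.Combinatorics.SimpleGraph.AdjMatrix
import Mathlib.Computability.Reduce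
import Mathlib.Data.Finset.DenselyOrdered
import Mathlib.Data.Int.Star
import Mathlib.Data.Pi.Interval
import Mathlib.NumberTheory.LSeries.RiemannZeta
import Mathlib.RingTheory.Etale.Weakly
import Mathlib.RingTheory.Flat.TorsionFree
import Mathlib.RingTheory.PicardGroup
import Mathlib.RingTheory.SimpleRing.Principal
import Mathlib.RingTheory.TotallySplit
import Mathlib.Tactic
import Mathlib.Topology.Algebra.ProperAction.Basic

/-! The part of Mathlib that the development of this folder uses. -/
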