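import Vale.Agent.P361.MathlibUsed

/-!
Quantum Heisenberg ferromagnet of spin `S = n / 2`.
-/

namespace Vale.Agent.P361.Model

open Matrix Filter Topology

noncomputable section

/-- `S³`: the basis vector `j : Fin (n+1)` has `S³ = n/2 - j`. -/
def spinZ (n : ℕ) : Matrix (Fin (n + 1)) (Fin (n + 1)) ℂ :=
  Matrix.diagonal fun j => (n : ℂ) / 2 - ((j : ℕ) : ℂ)

/-- The lowering matrix `S⁻ |j⟩ = √((j+1)(n-j)) |j+1⟩`. -/
def spinLower (n : ℕ) : Matrix (Fin (n + 1)) (Fin (n + 1)) ℂ :=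
  Matrix.of fun i j =>
    if (i : ℕ) = (j : ℕ) + 1 then ((Real.sqrt (((i : ℕ) : ℝ) * ((n : ℝ) + 1 - (i : ℕ))) : ℝ) : ℂ)
    else 0

/-- The spin matrices `S¹, S², S³` (indices `0, 1, 2`):
`S¹ = (S⁺ + S⁻)/2`, `S² = (S⁺ - S⁻)/(2i)`, with `S⁺ = (S⁻)ᴴ`. -/
def spin (n : ℕ) : Fin 3 → Matrix (Fin (n + 1)) (Fin (n + 1)) ℂ :=
  ![(1 / 2 : ℂ) • ((spinLower n)ᴴ + spinLower n),
    (1 / (2 * Complex.I) : ℂ) • ((spinLower n)ᴴ - spinLower n),
    spinZ n]

/-- Operators on `⊗_{x ∈ V} ℂ^{n+1}`, as matrices in the product basis. -/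
abbrev Op (n : ℕ) (V : Type) : Type := Matrix (V → Fin (n + 1)) (V → Fin (n + 1)) ℂ

/-- `A` acting at the site `x`, identity at the other sites. -/
def siteOp {n : ℕ} {V : Type} [Fintype V] [DecidableEq V] (x : V)
    (A : Matrix (Fin (n + 1)) (Fin (n + 1)) ℂ) : Op n V :=
  Matrix.of fun σ τ =>
    ∏ y : V, (if y = x then A else (1 : Matrix (Fin (n + 1)) (Fin (n + 1)) ℂ)) (σ y) (τ y)

/-- Minus the sum of `S_x · S_y` over unordered pairs `{x,y}` with `J x y` (`J` symmetric; the sum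
over ordered pairs counts each pair twice). -/
def hamiltonian (n : ℕ) {V : Type} [Fintype V] [DecidableEq V] (J : V → V → Prop)
    [DecidableRel J] : Op n V :=
  -((1 / 2 : ℂ) • ∑ x : V, ∑ y : V,
      if J x y then ∑ a : Fin 3, siteOp x (spin n a) * siteOp y (spin n a) else 0)

/-- `∑_x S³_x`. -/
def magnetization (n : ℕ) (V : Type) [Fintype V] [DecidableEq V] : Op n V :=
  ∑ x : V, siteOp x (spin n 2)

/-- `log Tr exp(-β (H - h M))`. -/
def logTr (n : ℕ) {V : Type} [Fintype V] [DecidableEq V] (J : V → V → Prop)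
    [DecidableRel J] (β h : ℝ) : ℝ :=
  Real.log (Matrix.trace (NormedSpace.exp
      (-(β : ℂ) • (hamiltonian n J - (h : ℂ) • magnetization n V)))).re

/-- `Λ_N = {-N, …, N}³`. -/
def box (N : ℕ) : Finset (Fin 3 → ℤ) := Finset.Icc (fun _ => -(N : ℤ)) (fun _ => (N : ℤ))

/-- Finite-volume pressure. -/
def finPressure (n N : ℕ) (β h : ℝ) : ℝ :=
  (β * (box N).card)⁻¹ * logTr n (fun x y : box N => ∑ i, |x.1 i - y.1 i| = 1) β h

/-- Infinite-volume pressure `p_β(h)`. -/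
def pressure (n : ℕ) (β h : ℝ) : ℝ := limUnder atTop fun N : ℕ => finPressure n N β h

/-- Spontaneous magnetization `m_S(β)`, the right derivative of `p_β` at `0`. -/
def spontMag (n : ℕ) (β : ℝ) : ℝ := derivWithin (pressure n β) (Set.Ioi 0) 0

/-- Magnon dispersion `ε_S(k) = 2S ∑ⱼ (1 - cos kⱼ)`. -/
def magnon (S : ℝ) (k : Fin 3 → ℝ) : ℝ := 2 * S * ∑ j, (1 - Real.cos (k j))

/-- `(2π)⁻³ ∫_{[-π,π]³} dk / (e^{f(k)} - 1)`. -/
def boseInt (f : (Fin 3 → ℝ) → ℝ) : ℝ :=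
  ((2 * Real.pi) ^ 3)⁻¹ *
    ∫ k in Set.univ.pi fun _ : Fin 3 => Set.Icc (-Real.pi) Real.pi, 1 / (Real.exp (f k) - 1)

end

end Vale.Agent.P361.Model
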