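import Vale.Agent.P361.Model

/-!
Magnetization in a field, and the ideal spin-wave prediction.
-/

namespace Vale.Agent.P361.Model

noncomputable section

/-- Magnetization in the field `h`: the right derivative of `p_β` at `h`. -/
def mag (n : ℕ) (β h : ℝ) : ℝ := derivWithin (pressure n β) (Set.Ioi h) h

/-- `(4πS)^{-3/2} ∑_{j ≥ 1} e^{-jt} / j^{3/2}`. -/
def idealDeficit (S t : ℝ) : ℝ :=
  (4 * Real.pi * S) ^ (-(3 / 2) : ℝ) *
    ∑' j : ℕ, Real.exp (-(((j : ℝ) + 1) * t)) / ((j : ℝ) + 1) ^ (3 / 2 : ℝ)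

end

end Vale.Agent.P361.Model
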