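import Vale.Agent.P361.Defs

/-!
Limit along cubes of a superadditive, translation invariant set function.
-/

namespace Vale.Agent.P361

open Filter Topology Finset

/-- The cube `{0, …, L-1}³`. -/
noncomputable def cube (L : ℕ) : Finset Site := Fintype.piFinset fun _ => Finset.Ico (0 : ℤ) (L : ℤ)

theorem mem_cube {L : ℕ} {x : Site} : x ∈ cube L ↔ ∀ i, 0 ≤ x i ∧ x i < L := by
  simp [cube, Fintype.mem_piFinset]

theorem card_cube (L : ℕ) : (cube L).card = L ^ 3 := by
  simp [cube]

theorem box_eq_map (N : ℕ) :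
    box N = (cube (2 * N + 1)).map (addRightEmbedding (fun _ => -(N : ℤ))) := by
  ext x
  simp only [box, Finset.mem_Icc, Finset.mem_map, addRightEmbedding_apply, mem_cube, Pi.le_def]
  constructor
  · rintro ⟨h1, h2⟩
    refine ⟨fun i => x i + N, fun i => ⟨by linarith [h1 i], ?_⟩, ?_⟩
    · push_cast
      linarith [h2 i]
    · ext i; simp
  · rintro ⟨y, hy, rfl⟩
    refine ⟨fun i => ?_, fun i => ?_⟩
    · simp only [Pi.add_apply]
      linarith [(hy i).1]
    · simp only [Pi.add_apply]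
      have := (hy i).2
      push_cast at this
      linarith

theorem card_box (N : ℕ) : (box N).card = (2 * N + 1) ^ 3 := by
  rw [box_eq_map, Finset.card_map, card_cube]

section

variable {G : Finset Site → ℝ}
  (hsup : ∀ Λ₁ Λ₂ : Finset Site, Disjoint Λ₁ Λ₂ → G Λ₁ + G Λ₂ ≤ G (Λ₁ ∪ Λ₂))
  (htr : ∀ (v : Site) (Λ : Finset Site), G (Λ.map (addRightEmbedding v)) = G Λ)
  (h0 : ∀ Λ : Finset Site, 0 ≤ G Λ)

include hsup h0

theorem G_mono {Λ₁ Λ₂ : Finset Site} (h : Λ₁ ⊆ Λ₂) : G Λ₁ ≤ G Λ₂ := by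
  have h1 := hsup Λ₁ (Λ₂ \ Λ₁) Finset.disjoint_sdiff
  rw [Finset.union_sdiff_of_subset h] at h1
  linarith [h0 (Λ₂ \ Λ₁)]

theorem G_biUnion {ω : Type*} [DecidableEq ω] (J : Finset ω) (Λ : ω → Finset Site)
    (hd : (J : Set ω).PairwiseDisjoint Λ) : ∑ j ∈ J, G (Λ j) ≤ G (J.biUnion Λ) := by
  induction J using Finset.induction_on with
  | empty => simpa using h0 ∅
  | insert a J ha ih =>
    rw [Finset.sum_insert ha, Finset.biUnion_insert]
    have h1 : Disjoint (Λ a) (J.biUnion Λ) := by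
      rw [Finset.disjoint_biUnion_right]
      intro j hj
      exact hd (by simp) (by simp [hj]) (by rintro rfl; exact ha hj)
    have h2 := ih (hd.subset (by simp))
    linarith [hsup _ _ h1]

include htr

theorem G_cube_mul (m q L : ℕ) (hm : 0 < m) (hL : q * m ≤ L) :
    (q : ℝ) ^ 3 * G (cube m) ≤ G (cube L) := by
  set Λ : Site → Finset Site := fun j => (cube m).map (addRightEmbedding ((m : ℤ) • j)) with hΛ
  have hmem : ∀ j x : Site, x ∈ Λ j ↔ ∀ i, (m : ℤ) * j i ≤ x i ∧ x i < (m : ℤ) * j i + m := by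
    intro j x
    simp only [hΛ, Finset.mem_map, addRightEmbedding_apply, mem_cube]
    constructor
    · rintro ⟨y, hy, rfl⟩ i
      have := hy i
      simp only [Pi.add_apply, Pi.smul_apply, smul_eq_mul]
      constructor <;> linarith
    · intro h
      refine ⟨x - (m : ℤ) • j, fun i => ?_, by simp⟩
      have := h i
      simp only [Pi.sub_apply, Pi.smul_apply, smul_eq_mul]
      constructor <;> linarith
  have hdisj : ((cube q : Finset Site) : Set Site).PairwiseDisjoint Λ := by
    intro j _ k _ hjk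
    rw [Function.onFun, Finset.disjoint_left]
    intro x hx hx'
    apply hjk
    ext i
    have h1 := (hmem j x).1 hx i
    have h2 := (hmem k x).1 hx' i
    have hm' : (0 : ℤ) < m := by exact_mod_cast hm
    have e1 : x i / m = j i := by
      rw [Int.ediv_eq_iff_of_pos hm']
      constructor <;> linarith
    have e2 : x i / m = k i := by
      rw [Int.ediv_eq_iff_of_pos hm']
      constructor <;> linarith
    rw [← e1, e2]
  have hsub : (cube q).biUnion Λ ⊆ cube L := by
    intro x hx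
    rw [Finset.mem_biUnion] at hx
    obtain ⟨j, hj, hx⟩ := hx
    rw [mem_cube] at hj ⊢
    intro i
    have h1 := (hmem j x).1 hx i
    have h2 := hj i
    have hm' : (0 : ℤ) < m := by exact_mod_cast hm
    have hL' : (q : ℤ) * m ≤ L := by exact_mod_cast hL
    constructor
    · nlinarith [mul_nonneg hm'.le h2.1]
    · have h3 : j i + 1 ≤ q := h2.2
      nlinarith [mul_le_mul_of_nonneg_left h3 hm'.le]
  have h1 := G_biUnion hsup h0 (cube q) Λ hdisj
  have h2 := G_mono hsup h0 hsub
  have h3 : ∑ j ∈ cube q, G (Λ j) = (q : ℝ) ^ 3 * G (cube m) := by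
    simp only [hΛ, htr, Finset.sum_const, card_cube, nsmul_eq_mul, Nat.cast_pow]
  linarith

theorem tendsto_cube {C : ℝ} (hC : ∀ Λ : Finset Site, G Λ ≤ C * Λ.card) :
    ∃ p : ℝ, Tendsto (fun L : ℕ => G (cube L) / (L : ℝ) ^ 3) atTop (𝓝 p) := by
  set a : ℕ → ℝ := fun L => G (cube L) / (L : ℝ) ^ 3 with ha
  have hub : ∀ L : ℕ, 0 < L → a L ≤ C := by
    intro L hL
    have : (0 : ℝ) < L := by exact_mod_cast hL
    simp only [ha]
    rw [div_le_iff₀ (by positivity)]
    have := hC (cube L)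
    rw [card_cube] at this
    exact_mod_cast this
  set s : ℝ := ⨆ m : ℕ, a (m + 1) with hs
  have hbdd : BddAbove (Set.range fun m : ℕ => a (m + 1)) := by
    refine ⟨C, ?_⟩
    rintro _ ⟨m, rfl⟩
    exact hub _ (Nat.succ_pos m)
  refine ⟨s, ?_⟩
  rw [tendsto_order]
  constructor
  · intro u hu
    obtain ⟨m', hm'⟩ := exists_lt_of_lt_ciSup hu
    set m := m' + 1 with hmdef
    have hm : 0 < m := Nat.succ_pos _
    have hmR : (0 : ℝ) < m := by exact_mod_cast hm
    have hlow : ∀ L : ℕ, 0 < L → (((L / m : ℕ) : ℝ) / L) ^ 3 * G (cube m) ≤ a L := by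
      intro L hL
      have hLR : (0 : ℝ) < L := by exact_mod_cast hL
      have h1 := G_cube_mul hsup htr h0 m (L / m) L hm (Nat.div_mul_le_self L m)
      simp only [ha]
      rw [le_div_iff₀ (by positivity), div_pow]
      have : ((L / m : ℕ) : ℝ) ^ 3 / (L : ℝ) ^ 3 * G (cube m) * (L : ℝ) ^ 3 =
          ((L / m : ℕ) : ℝ) ^ 3 * G (cube m) := by
        field_simp
      rw [this]
      exact h1
    have hlim : Tendsto (fun L : ℕ => (((L / m : ℕ) : ℝ) / L) ^ 3 * G (cube m)) atTop
        (𝓝 ((1 / (m : ℝ)) ^ 3 * G (cube m))) := by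
      refine Tendsto.mul_const _ (Tendsto.pow ?_ 3)
      have h2 := (tendsto_nat_floor_mul_div_atTop (R := ℝ) (a := 1 / (m : ℝ))
        (by positivity)).comp tendsto_natCast_atTop_atTop
      refine h2.congr' ?_
      filter_upwards with L
      simp only [Function.comp]
      congr 2
      rw [one_div, inv_mul_eq_div, Nat.floor_div_eq_div]
    have hval : (1 / (m : ℝ)) ^ 3 * G (cube m) = a m := by
      simp only [ha]
      field_simp
    rw [hval] at hlim
    filter_upwards [(tendsto_order.1 hlim).1 u hm', eventually_gt_atTop 0] with L h1 h2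
    exact lt_of_lt_of_le h1 (hlow L h2)
  · intro u hu
    filter_upwards [eventually_gt_atTop 0] with L hL
    obtain ⟨k, rfl⟩ : ∃ k, L = k + 1 := ⟨L - 1, by omega⟩
    exact lt_of_le_of_lt (le_ciSup hbdd k) hu

theorem tendsto_box {C : ℝ} (hC : ∀ Λ : Finset Site, G Λ ≤ C * Λ.card) :
    ∃ p : ℝ, Tendsto (fun N : ℕ => G (box N) / ((box N).card : ℝ)) atTop (𝓝 p) := by
  obtain ⟨p, hp⟩ := tendsto_cube hsup htr h0 hC
  refine ⟨p, ?_⟩
  have h1 : Tendsto (fun N : ℕ => 2 * N + 1) atTop atTop := by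
    refine tendsto_atTop_mono (fun n => ?_) tendsto_id
    simp only [id]; omega
  refine (hp.comp h1).congr fun N => ?_
  simp only [Function.comp]
  rw [box_eq_map, htr, Finset.card_map, card_cube]
  push_cast
  rfl

end

end Vale.Agent.P361
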