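import Vale.Agent.P361.Model
import Vale.Agent.P361.H.Main

namespace Vale.Agent.P361.Bridge

open Filter Topology MeasureTheory

lemma hamiltonian_eq (n N : ℕ) :
    Model.hamiltonian n (fun x y : Model.box N => ∑ i, |x.1 i - y.1 i| = 1) =
      hamiltonian n (box N) := rfl

lemma magnetization_eq (n N : ℕ) :
    Model.magnetization n (Model.box N) = magnetization n (box N) := rfl

lemma finPressure_eq (n N : ℕ) (β h : ℝ) :
    Model.finPressure n N β h = finPressure n (box N) β h := rfl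

lemma pressure_eq (n : ℕ) (β h : ℝ) : Model.pressure n β h = pressure n β h := rfl

lemma spontMag_eq (n : ℕ) (β : ℝ) : Model.spontMag n β = spontMag n β := rfl

theorem main_thermo (n : ℕ) (hn : 1 ≤ n) (β : ℝ) (hβ : 0 < β) :
    (∀ h : ℝ, Tendsto (fun N : ℕ => Model.finPressure n N β h) atTop
      (𝓝 (Model.pressure n β h))) ∧
    ConvexOn ℝ Set.univ (Model.pressure n β) ∧
    HasDerivWithinAt (Model.pressure n β) (Model.spontMag n β) (Set.Ioi 0) 0 ∧
    Model.spontMag n β ≤ (n : ℝ) / 2 :=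
  ⟨fun h => pressure_tendsto n hβ h, pressure_convex n hβ, spontMag_hasDeriv n hβ,
    H.spontMag_le n hβ hn⟩

theorem main_integral (n : ℕ) (hn : 1 ≤ n) (β : ℝ) (hβ : 0 < β) (hm : 0 < Model.spontMag n β) :
    IntegrableOn (fun k => 1 / (Real.exp (β * ((n : ℝ) / 2 / Model.spontMag n β) *
      Model.magnon ((n : ℝ) / 2) k) - 1)) (Set.univ.pi fun _ => Set.Icc (-Real.pi) Real.pi) ∧
    Model.spontMag n β / ((n : ℝ) / 2) * Model.boseInt (fun k =>
      β * ((n : ℝ) / 2 / Model.spontMag n β) * Model.magnon ((n : ℝ) / 2) k) ≤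
      (n : ℝ) / 2 - Model.spontMag n β := by
  have h := H.magAt_integral hn hβ le_rfl (h₀ := 0) hm
  have e : ∀ k : Fin 3 → ℝ, β * ((n : ℝ) / 2 / Model.spontMag n β) *
      Model.magnon ((n : ℝ) / 2) k =
      β * ((n : ℝ) / 2 / H.magAt n β 0 *
        (2 * ((n : ℝ) / 2) * ∑ j, (1 - Real.cos (k j))) + 0) := by
    intro k
    have : H.magAt n β 0 = Model.spontMag n β := rfl
    rw [this, Model.magnon, add_zero, mul_assoc]
  unfold Model.boseInt
  simp only [e]
  exact h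

theorem main_bloch (n : ℕ) (hn : 1 ≤ n) (c : ℝ) (hc : c < (riemannZeta (3 / 2)).re /
    (8 * Real.pi ^ (3 / 2 : ℝ) * ((n : ℝ) / 2) ^ (3 / 2 : ℝ))) :
    ∀ᶠ β : ℝ in atTop, c < β ^ (3 / 2 : ℝ) * ((n : ℝ) / 2 - Model.spontMag n β) :=
  H.one_sided_bloch hn hc

end Vale.Agent.P361.Bridge
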