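import Vale.Agent.P361.ModelB
import Vale.Agent.P361.Bridge
import Vale.Agent.P361.B.Uniform

namespace Vale.Agent.P361.BridgeB

open Filter Topology MeasureTheory

lemma mag_eq (n : ℕ) (β h : ℝ) : Model.mag n β h = H.magAt n β h := rfl

lemma mag_zero (n : ℕ) (β : ℝ) : Model.mag n β 0 = Model.spontMag n β := rfl

lemma sqrt_cube {x : ℝ} (hx : 0 ≤ x) : Real.sqrt x ^ 3 = x ^ (3 / 2 : ℝ) := by
  rw [Real.sqrt_eq_rpow, ← Real.rpow_natCast, ← Real.rpow_mul hx]
  norm_num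

lemma ideal_eq {S : ℝ} (hS : 0 < S) (t : ℝ) : Model.idealDeficit S t = B.fS S t := by
  unfold Model.idealDeficit B.fS
  congr 1
  · rw [sqrt_cube (by have := Real.pi_pos; positivity), Real.rpow_neg (by have := Real.pi_pos; positivity)]
  · refine tsum_congr fun j => ?_
    rw [sqrt_cube (by positivity)]

lemma ideal_zero {S : ℝ} (hS : 0 < S) : Model.idealDeficit S 0 =
    (riemannZeta (3 / 2)).re / (8 * Real.pi ^ (3 / 2 : ℝ) * S ^ (3 / 2 : ℝ)) := by
  have hpi := Real.pi_pos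
  rw [ideal_eq hS, B.fS_zero, B.aS, ← sqrt_cube hpi.le, ← sqrt_cube hS.le]
  have e : Real.sqrt (4 * Real.pi * S) = 2 * (Real.sqrt Real.pi * Real.sqrt S) := by
    rw [← Real.sqrt_mul hpi.le, show 4 * Real.pi * S = 2 ^ 2 * (Real.pi * S) by ring,
      Real.sqrt_mul (by norm_num), Real.sqrt_sq (by norm_num)]
  rw [e]
  have h1 : 0 < Real.sqrt Real.pi := Real.sqrt_pos.2 hpi
  have h2 : 0 < Real.sqrt S := Real.sqrt_pos.2 hS
  field_simp
  ring

end Vale.Agent.P361.BridgeB
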