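import Vale.Agent.P361.BridgeB
import Vale.Agent.P361.B.Final

/-!
Model-level forms of the results on the magnetization in a field.
-/

namespace Vale.Agent.P361.BridgeB

open Filter Topology MeasureTheory

theorem mag_deriv (n : ℕ) (hn : 1 ≤ n) (β : ℝ) (hβ : 0 < β) (h : ℝ) (hh : 0 ≤ h) :
    HasDerivWithinAt (Model.pressure n β) (Model.mag n β h) (Set.Ioi h) h ∧
      Model.mag n β h ≤ (n : ℝ) / 2 :=
  ⟨pressure_hasRightDeriv n hβ h, B.magAt_le hn hβ hh⟩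

theorem mag_int (n : ℕ) (hn : 1 ≤ n) (β h : ℝ) (hβ : 0 < β) (hh : 0 ≤ h)
    (hm : 0 < Model.mag n β h) :
    IntegrableOn
      (fun k => 1 / (Real.exp (β * ((n : ℝ) / 2 / Model.mag n β h *
        Model.magnon ((n : ℝ) / 2) k + h)) - 1))
      (Set.univ.pi fun _ => Set.Icc (-Real.pi) Real.pi) ∧
    Model.mag n β h / ((n : ℝ) / 2) *
      Model.boseInt (fun k => β * ((n : ℝ) / 2 / Model.mag n β h *
        Model.magnon ((n : ℝ) / 2) k + h)) ≤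
      (n : ℝ) / 2 - Model.mag n β h :=
  H.magAt_integral hn hβ hh hm

theorem mag_uniform (n : ℕ) (hn : 1 ≤ n) (κ : ℝ) (hκ2 : κ < 1 / 21) (ε : ℝ) (hε : 0 < ε) :
    ∀ᶠ β : ℝ in atTop, ∀ h : ℝ, β ^ (-1 - κ) ≤ h →
      |β ^ (3 / 2 : ℝ) * ((n : ℝ) / 2 - Model.mag n β h) -
        Model.idealDeficit ((n : ℝ) / 2) (β * h)| ≤ ε := by
  have hS : 0 < (n : ℝ) / 2 := by
    have : (1 : ℝ) ≤ n := by exact_mod_cast hn
    linarith
  simp only [mag_eq, ideal_eq hS]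
  exact B.bloch_uniform hn hκ2 hε

theorem mag_vanishing (n : ℕ) (hn : 1 ≤ n) (κ : ℝ) (hκ : 0 < κ) (hκ2 : κ < 1 / 21) :
    Tendsto (fun β : ℝ => β ^ (3 / 2 : ℝ) * ((n : ℝ) / 2 - Model.mag n β (β ^ (-1 - κ)))) atTop
      (𝓝 ((riemannZeta (3 / 2)).re /
        (8 * Real.pi ^ (3 / 2 : ℝ) * ((n : ℝ) / 2) ^ (3 / 2 : ℝ)))) :=
  B.bloch_vanishing hn hκ hκ2

theorem mag_crude (n : ℕ) (hn : 1 ≤ n) (ε : ℝ) (hε : 0 < ε) :
    ∀ᶠ β : ℝ in atTop, ∀ h : ℝ, 0 < h →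
      (n : ℝ) / 2 - Model.mag n β h ≤ β ^ (-(5 / 2) + ε) / h :=
  B.crude_deficit hn hε

end Vale.Agent.P361.BridgeB
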