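import Vale.Agent.P361.SpinAlg
import Vale.Agent.P361.Mag

/-!
The double commutator of a weighted raising operator with the Heisenberg exponent.
-/

namespace Vale.Agent.P361

open Matrix Finset
open scoped ComplexOrder

variable {n : ℕ} {Λ : Finset Site}

/-- `A_f = ∑ f_x S⁺_x`. -/
noncomputable def modeOp (n : ℕ) {Λ : Finset Site} (f : Λ → ℝ) :
    Matrix (Λ → Fin (n + 1)) (Λ → Fin (n + 1)) ℂ :=
  ∑ x, (f x : ℂ) • siteOp x (spinRaise n)

theorem star_modeOp (f : Λ → ℝ) :
    star (modeOp n f) = ∑ x, (f x : ℂ) • siteOp x (spinLower n) := by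
  rw [modeOp, Matrix.star_eq_conjTranspose, Matrix.conjTranspose_sum]
  refine Finset.sum_congr rfl fun x _ => ?_
  rw [Matrix.conjTranspose_smul, siteOp_conjTranspose, spinRaise,
    Matrix.conjTranspose_conjTranspose]
  simp

/-- The pair interaction in terms of raising and lowering operators. -/
noncomputable def pairH (n : ℕ) {Λ : Finset Site} (x y : Λ) :
    Matrix (Λ → Fin (n + 1)) (Λ → Fin (n + 1)) ℂ :=
  siteOp x (spinZ n) * siteOp y (spinZ n) +
      (1 / 2 : ℂ) • (siteOp x (spinRaise n) * siteOp y (spinLower n) +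
        siteOp x (spinLower n) * siteOp y (spinRaise n))

/-- Bond current. -/
noncomputable def bondW (n : ℕ) {Λ : Finset Site} (x y : Λ) :
    Matrix (Λ → Fin (n + 1)) (Λ → Fin (n + 1)) ℂ :=
  siteOp x (spinLower n) * siteOp y (spinZ n) - siteOp x (spinZ n) * siteOp y (spinLower n)

theorem comm_prod_of_ne {x y z : Λ} (hx : z ≠ x) (hy : z ≠ y)
    (A B C : Matrix (Fin (n + 1)) (Fin (n + 1)) ℂ) :
    siteOp z C * (siteOp x A * siteOp y B) - (siteOp x A * siteOp y B) * siteOp z C = 0 := by
  rw [← Matrix.mul_assoc, siteOp_commute hx, Matrix.mul_assoc, siteOp_commute hy,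
    ← Matrix.mul_assoc, sub_self]

theorem comm_prod_left {x y : Λ} (hxy : x ≠ y)
    (A B C : Matrix (Fin (n + 1)) (Fin (n + 1)) ℂ) :
    siteOp x C * (siteOp x A * siteOp y B) - (siteOp x A * siteOp y B) * siteOp x C =
      siteOp x (C * A - A * C) * siteOp y B := by
  rw [Matrix.mul_assoc (siteOp x A), ← siteOp_commute hxy, ← Matrix.mul_assoc, ← Matrix.mul_assoc,
    siteOp_mul, siteOp_mul, ← Matrix.sub_mul, ← siteOp_sub]

theorem comm_prod_right {x y : Λ} (hxy : x ≠ y)
    (A B C : Matrix (Fin (n + 1)) (Fin (n + 1)) ℂ) :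
    siteOp y C * (siteOp x A * siteOp y B) - (siteOp x A * siteOp y B) * siteOp y C =
      siteOp x A * siteOp y (C * B - B * C) := by
  rw [← Matrix.mul_assoc, ← siteOp_commute hxy, Matrix.mul_assoc, Matrix.mul_assoc,
    siteOp_mul, siteOp_mul, ← Matrix.mul_sub, ← siteOp_sub]

theorem comm_lower_pairH_of_ne {x y z : Λ} (hx : z ≠ x) (hy : z ≠ y) :
    siteOp z (spinLower n) * pairH n x y - pairH n x y * siteOp z (spinLower n) = 0 := by
  have h1 := comm_prod_of_ne hx hy (spinZ n) (spinZ n) (spinLower n)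
  have h2 := comm_prod_of_ne hx hy (spinRaise n) (spinLower n) (spinLower n)
  have h3 := comm_prod_of_ne hx hy (spinLower n) (spinRaise n) (spinLower n)
  rw [pairH]
  have : siteOp z (spinLower n) * (siteOp x (spinZ n) * siteOp y (spinZ n) +
      (1 / 2 : ℂ) • (siteOp x (spinRaise n) * siteOp y (spinLower n) +
        siteOp x (spinLower n) * siteOp y (spinRaise n))) -
      (siteOp x (spinZ n) * siteOp y (spinZ n) +
      (1 / 2 : ℂ) • (siteOp x (spinRaise n) * siteOp y (spinLower n) +
        siteOp x (spinLower n) * siteOp y (spinRaise n))) * siteOp z (spinLower n) =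
      (siteOp z (spinLower n) * (siteOp x (spinZ n) * siteOp y (spinZ n)) -
        (siteOp x (spinZ n) * siteOp y (spinZ n)) * siteOp z (spinLower n)) +
      (1 / 2 : ℂ) • ((siteOp z (spinLower n) * (siteOp x (spinRaise n) * siteOp y (spinLower n)) -
        (siteOp x (spinRaise n) * siteOp y (spinLower n)) * siteOp z (spinLower n)) +
        (siteOp z (spinLower n) * (siteOp x (spinLower n) * siteOp y (spinRaise n)) -
        (siteOp x (spinLower n) * siteOp y (spinRaise n)) * siteOp z (spinLower n))) := by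
    simp only [Matrix.mul_add, Matrix.add_mul, Matrix.mul_smul, Matrix.smul_mul]
    module
  rw [this, h1, h2, h3]
  simp

theorem comm_lower_pairH_left {x y : Λ} (hxy : x ≠ y) :
    siteOp x (spinLower n) * pairH n x y - pairH n x y * siteOp x (spinLower n) = bondW n x y := by
  have h1 := comm_prod_left hxy (spinZ n) (spinZ n) (spinLower n)
  have h2 := comm_prod_left hxy (spinRaise n) (spinLower n) (spinLower n)
  have h3 := comm_prod_left hxy (spinLower n) (spinRaise n) (spinLower n)
  have c2 : spinLower n * spinRaise n - spinRaise n * spinLower n = -((2 : ℂ) • spinZ n) := by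
    rw [← raise_lower_comm, neg_sub]
  rw [lower_Z_comm] at h1
  rw [c2] at h2
  rw [sub_self, siteOp_zero, Matrix.zero_mul] at h3
  have : siteOp x (spinLower n) * pairH n x y - pairH n x y * siteOp x (spinLower n) =
      (siteOp x (spinLower n) * (siteOp x (spinZ n) * siteOp y (spinZ n)) -
        (siteOp x (spinZ n) * siteOp y (spinZ n)) * siteOp x (spinLower n)) +
      (1 / 2 : ℂ) • ((siteOp x (spinLower n) * (siteOp x (spinRaise n) * siteOp y (spinLower n)) -
        (siteOp x (spinRaise n) * siteOp y (spinLower n)) * siteOp x (spinLower n)) +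
        (siteOp x (spinLower n) * (siteOp x (spinLower n) * siteOp y (spinRaise n)) -
        (siteOp x (spinLower n) * siteOp y (spinRaise n)) * siteOp x (spinLower n))) := by
    rw [pairH]
    simp only [Matrix.mul_add, Matrix.add_mul, Matrix.mul_smul, Matrix.smul_mul]
    module
  rw [this, h1, h2, h3, bondW, siteOp_neg, siteOp_smul, Matrix.neg_mul, Matrix.smul_mul]
  module

theorem comm_lower_pairH_right {x y : Λ} (hxy : x ≠ y) :
    siteOp y (spinLower n) * pairH n x y - pairH n x y * siteOp y (spinLower n) =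
      -bondW n x y := by
  have h1 := comm_prod_right hxy (spinZ n) (spinZ n) (spinLower n)
  have h2 := comm_prod_right hxy (spinRaise n) (spinLower n) (spinLower n)
  have h3 := comm_prod_right hxy (spinLower n) (spinRaise n) (spinLower n)
  have c2 : spinLower n * spinRaise n - spinRaise n * spinLower n = -((2 : ℂ) • spinZ n) := by
    rw [← raise_lower_comm, neg_sub]
  rw [lower_Z_comm] at h1
  rw [c2] at h3
  rw [sub_self, siteOp_zero, Matrix.mul_zero] at h2
  have : siteOp y (spinLower n) * pairH n x y - pairH n x y * siteOp y (spinLower n) =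
      (siteOp y (spinLower n) * (siteOp x (spinZ n) * siteOp y (spinZ n)) -
        (siteOp x (spinZ n) * siteOp y (spinZ n)) * siteOp y (spinLower n)) +
      (1 / 2 : ℂ) • ((siteOp y (spinLower n) * (siteOp x (spinRaise n) * siteOp y (spinLower n)) -
        (siteOp x (spinRaise n) * siteOp y (spinLower n)) * siteOp y (spinLower n)) +
        (siteOp y (spinLower n) * (siteOp x (spinLower n) * siteOp y (spinRaise n)) -
        (siteOp x (spinLower n) * siteOp y (spinRaise n)) * siteOp y (spinLower n))) := by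
    rw [pairH]
    simp only [Matrix.mul_add, Matrix.add_mul, Matrix.mul_smul, Matrix.smul_mul]
    module
  rw [this, h1, h2, h3, bondW, siteOp_neg, siteOp_smul, Matrix.mul_neg, Matrix.mul_smul]
  module

theorem comm_raise_bondW_of_ne {x y z : Λ} (hx : z ≠ x) (hy : z ≠ y) :
    siteOp z (spinRaise n) * bondW n x y - bondW n x y * siteOp z (spinRaise n) = 0 := by
  have h1 := comm_prod_of_ne hx hy (spinLower n) (spinZ n) (spinRaise n)
  have h2 := comm_prod_of_ne hx hy (spinZ n) (spinLower n) (spinRaise n)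
  have : siteOp z (spinRaise n) * bondW n x y - bondW n x y * siteOp z (spinRaise n) =
      (siteOp z (spinRaise n) * (siteOp x (spinLower n) * siteOp y (spinZ n)) -
        (siteOp x (spinLower n) * siteOp y (spinZ n)) * siteOp z (spinRaise n)) -
      (siteOp z (spinRaise n) * (siteOp x (spinZ n) * siteOp y (spinLower n)) -
        (siteOp x (spinZ n) * siteOp y (spinLower n)) * siteOp z (spinRaise n)) := by
    rw [bondW, Matrix.mul_sub, Matrix.sub_mul]
    abel
  rw [this, h1, h2, sub_zero]

theorem comm_raise_bondW_left {x y : Λ} (hxy : x ≠ y) :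
    siteOp x (spinRaise n) * bondW n x y - bondW n x y * siteOp x (spinRaise n) =
      (2 : ℂ) • (siteOp x (spinZ n) * siteOp y (spinZ n)) +
        siteOp x (spinRaise n) * siteOp y (spinLower n) := by
  have h1 := comm_prod_left hxy (spinLower n) (spinZ n) (spinRaise n)
  have h2 := comm_prod_left hxy (spinZ n) (spinLower n) (spinRaise n)
  rw [raise_lower_comm] at h1
  rw [raise_Z_comm] at h2
  have : siteOp x (spinRaise n) * bondW n x y - bondW n x y * siteOp x (spinRaise n) =
      (siteOp x (spinRaise n) * (siteOp x (spinLower n) * siteOp y (spinZ n)) -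
        (siteOp x (spinLower n) * siteOp y (spinZ n)) * siteOp x (spinRaise n)) -
      (siteOp x (spinRaise n) * (siteOp x (spinZ n) * siteOp y (spinLower n)) -
        (siteOp x (spinZ n) * siteOp y (spinLower n)) * siteOp x (spinRaise n)) := by
    rw [bondW, Matrix.mul_sub, Matrix.sub_mul]
    abel
  rw [this, h1, h2, siteOp_neg, siteOp_smul, Matrix.neg_mul, Matrix.smul_mul, sub_neg_eq_add]

theorem comm_raise_bondW_right {x y : Λ} (hxy : x ≠ y) :
    siteOp y (spinRaise n) * bondW n x y - bondW n x y * siteOp y (spinRaise n) =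
      -((2 : ℂ) • (siteOp x (spinZ n) * siteOp y (spinZ n)) +
        siteOp x (spinLower n) * siteOp y (spinRaise n)) := by
  have h1 := comm_prod_right hxy (spinLower n) (spinZ n) (spinRaise n)
  have h2 := comm_prod_right hxy (spinZ n) (spinLower n) (spinRaise n)
  rw [raise_Z_comm] at h1
  rw [raise_lower_comm] at h2
  have : siteOp y (spinRaise n) * bondW n x y - bondW n x y * siteOp y (spinRaise n) =
      (siteOp y (spinRaise n) * (siteOp x (spinLower n) * siteOp y (spinZ n)) -
        (siteOp x (spinLower n) * siteOp y (spinZ n)) * siteOp y (spinRaise n)) -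
      (siteOp y (spinRaise n) * (siteOp x (spinZ n) * siteOp y (spinLower n)) -
        (siteOp x (spinZ n) * siteOp y (spinLower n)) * siteOp y (spinRaise n)) := by
    rw [bondW, Matrix.mul_sub, Matrix.sub_mul]
    abel
  rw [this, h1, h2, siteOp_neg, siteOp_smul, Matrix.mul_neg, Matrix.mul_smul]
  abel

theorem dblComm_pairH (f : Λ → ℝ) {x y : Λ} (hxy : x ≠ y) :
    dblComm (modeOp n f) (pairH n x y) = ((f x - f y : ℝ) : ℂ) •
      ((f x : ℂ) • ((2 : ℂ) • (siteOp x (spinZ n) * siteOp y (spinZ n)) +
        siteOp x (spinRaise n) * siteOp y (spinLower n)) -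
       (f y : ℂ) • ((2 : ℂ) • (siteOp x (spinZ n) * siteOp y (spinZ n)) +
        siteOp x (spinLower n) * siteOp y (spinRaise n))) := by
  have h1 : star (modeOp n f) * pairH n x y - pairH n x y * star (modeOp n f) =
      ((f x - f y : ℝ) : ℂ) • bondW n x y := by
    rw [star_modeOp, Finset.sum_mul, Finset.mul_sum, ← Finset.sum_sub_distrib]
    have h2 : ∀ z : Λ, ((f z : ℂ) • siteOp z (spinLower n)) * pairH n x y -
        pairH n x y * ((f z : ℂ) • siteOp z (spinLower n)) =
        (f z : ℂ) • (siteOp z (spinLower n) * pairH n x y -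
          pairH n x y * siteOp z (spinLower n)) := by
      intro z
      rw [Matrix.smul_mul, Matrix.mul_smul, smul_sub]
    simp only [h2]
    rw [Fintype.sum_eq_add x y hxy, comm_lower_pairH_left hxy, comm_lower_pairH_right hxy]
    · push_cast
      module
    · intro z hz
      rw [comm_lower_pairH_of_ne hz.1 hz.2, smul_zero]
  unfold dblComm
  rw [h1, Matrix.mul_smul, Matrix.smul_mul, ← smul_sub]
  congr 1
  rw [modeOp, Finset.sum_mul, Finset.mul_sum, ← Finset.sum_sub_distrib]
  have h2 : ∀ z : Λ, ((f z : ℂ) • siteOp z (spinRaise n)) * bondW n x y -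
      bondW n x y * ((f z : ℂ) • siteOp z (spinRaise n)) =
      (f z : ℂ) • (siteOp z (spinRaise n) * bondW n x y -
        bondW n x y * siteOp z (spinRaise n)) := by
    intro z
    rw [Matrix.smul_mul, Matrix.mul_smul, smul_sub]
  simp only [h2]
  rw [Fintype.sum_eq_add x y hxy, comm_raise_bondW_left hxy, comm_raise_bondW_right hxy]
  · module
  · intro z hz
    rw [comm_raise_bondW_of_ne hz.1 hz.2, smul_zero]

theorem dblComm_Z (f : Λ → ℝ) (x : Λ) :
    dblComm (modeOp n f) (siteOp x (spinZ n)) =
      ((2 * f x ^ 2 : ℝ) : ℂ) • siteOp x (spinZ n) := by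
  have h1 : star (modeOp n f) * siteOp x (spinZ n) - siteOp x (spinZ n) * star (modeOp n f) =
      (f x : ℂ) • siteOp x (spinLower n) := by
    rw [star_modeOp, Finset.sum_mul, Finset.mul_sum, ← Finset.sum_sub_distrib,
      Fintype.sum_eq_single x]
    · rw [Matrix.smul_mul, Matrix.mul_smul, ← smul_sub, siteOp_mul, siteOp_mul, ← siteOp_sub,
        lower_Z_comm]
    · intro z hz
      rw [Matrix.smul_mul, Matrix.mul_smul, siteOp_commute hz, sub_self]
  unfold dblComm
  rw [h1, modeOp, Finset.sum_mul, Finset.mul_sum, ← Finset.sum_sub_distrib,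
      Fintype.sum_eq_single x]
  · rw [Matrix.smul_mul, Matrix.mul_smul, Matrix.smul_mul, Matrix.mul_smul, ← smul_sub, ← smul_sub,
      siteOp_mul, siteOp_mul, ← siteOp_sub, raise_lower_comm, siteOp_smul]
    push_cast
    module
  · intro z hz
    rw [Matrix.smul_mul, Matrix.mul_smul, Matrix.smul_mul, Matrix.mul_smul, siteOp_commute hz]
    module

theorem dblComm_add {ι : Type*} [Fintype ι] [DecidableEq ι] (A X Y : Matrix ι ι ℂ) :
    dblComm A (X + Y) = dblComm A X + dblComm A Y := by
  unfold dblComm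
  simp only [Matrix.mul_add, Matrix.add_mul, Matrix.mul_sub, Matrix.sub_mul]
  abel

theorem dblComm_smul {ι : Type*} [Fintype ι] [DecidableEq ι] (c : ℂ) (A X : Matrix ι ι ℂ) :
    dblComm A (c • X) = c • dblComm A X := by
  unfold dblComm
  simp only [Matrix.mul_smul, Matrix.smul_mul, ← smul_sub]

theorem dblComm_zero {ι : Type*} [Fintype ι] [DecidableEq ι] (A : Matrix ι ι ℂ) :
    dblComm A (0 : Matrix ι ι ℂ) = 0 := by
  unfold dblComm
  simp

theorem dblComm_sum {ι : Type*} [Fintype ι] [DecidableEq ι] {κ : Type*} (s : Finset κ)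
    (A : Matrix ι ι ℂ) (X : κ → Matrix ι ι ℂ) :
    dblComm A (∑ i ∈ s, X i) = ∑ i ∈ s, dblComm A (X i) := by
  classical
  induction s using Finset.induction_on with
  | empty => simp [dblComm_zero]
  | insert a s ha ih => rw [Finset.sum_insert ha, Finset.sum_insert ha, dblComm_add, ih]

/-- The exponent in terms of pair interactions. -/
theorem expo_eq (n : ℕ) (Λ : Finset Site) (β h : ℝ) :
    expo n Λ β h = ((β / 2 : ℝ) : ℂ) • (∑ x : Λ, ∑ y : Λ, if IsNN x.1 y.1 then pairH n x y else 0) +
      ((β * h : ℝ) : ℂ) • ∑ x : Λ, siteOp x (spinZ n) := by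
  unfold expo hamiltonian magnetization
  have h2 : spin n 2 = spinZ n := rfl
  have h3 : ∀ x y : Λ, ∑ a : Fin 3, siteOp x (spin n a) * siteOp y (spin n a) = pairH n x y :=
    fun x y => pair_eq x y
  simp only [h3, h2]
  push_cast
  module

theorem dblComm_expo (f : Λ → ℝ) (β h : ℝ) :
    dblComm (modeOp n f) (expo n Λ β h) =
      ((β / 2 : ℝ) : ℂ) • (∑ x : Λ, ∑ y : Λ, if IsNN x.1 y.1 then
        dblComm (modeOp n f) (pairH n x y) else 0) +
      ((β * h : ℝ) : ℂ) • ∑ x : Λ, ((2 * f x ^ 2 : ℝ) : ℂ) • siteOp x (spinZ n) := by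
  rw [expo_eq, dblComm_add, dblComm_smul, dblComm_smul, dblComm_sum, dblComm_sum]
  simp only [dblComm_sum, dblComm_Z]
  congr 2
  refine Finset.sum_congr rfl fun x _ => Finset.sum_congr rfl fun y _ => ?_
  split_ifs
  · rfl
  · exact dblComm_zero _

end Vale.Agent.P361
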