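import Mathlib

/-!
Quantum Heisenberg ferromagnet of spin `S = n / 2` on finite subsets of `ℤ³`.
-/

namespace Vale.Agent.P361

open Matrix Filter Topology

noncomputable section

/-- Local spin-`n/2` matrices. Basis vector `j : Fin (n+1)` has `S³ = n/2 - j`. -/
def spinZ (n : ℕ) : Matrix (Fin (n + 1)) (Fin (n + 1)) ℂ :=
  Matrix.diagonal fun j => (n : ℂ) / 2 - ((j : ℕ) : ℂ)

/-- The lowering matrix `S⁻ |j⟩ = √((j+1)(n-j)) |j+1⟩`. -/
def spinLower (n : ℕ) : Matrix (Fin (n + 1)) (Fin (n + 1)) ℂ :=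
  Matrix.of fun i j =>
    if (i : ℕ) = (j : ℕ) + 1 then ((Real.sqrt (((i : ℕ) : ℝ) * ((n : ℝ) + 1 - (i : ℕ))) : ℝ) : ℂ)
    else 0

/-- The spin matrices `S¹, S², S³` (indices `0, 1, 2`):
`S¹ = (S⁺ + S⁻)/2`, `S² = (S⁺ - S⁻)/(2i)`, with `S⁺ = (S⁻)ᴴ`. -/
def spin (n : ℕ) : Fin 3 → Matrix (Fin (n + 1)) (Fin (n + 1)) ℂ :=
  ![(1 / 2 : ℂ) • ((spinLower n)ᴴ + spinLower n),
    (1 / (2 * Complex.I) : ℂ) • ((spinLower n)ᴴ - spinLower n),
    spinZ n]

/-- Lattice sites. -/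
abbrev Site : Type := Fin 3 → ℤ

/-- The operator `A` acting at site `x` of the finite set `Λ`, identity elsewhere:
the matrix of `A_x ⊗ (⊗_{y ≠ x} 1)` in the product basis. -/
def siteOp {n : ℕ} {Λ : Finset Site} (x : Λ) (A : Matrix (Fin (n + 1)) (Fin (n + 1)) ℂ) :
    Matrix (Λ → Fin (n + 1)) (Λ → Fin (n + 1)) ℂ :=
  Matrix.of fun σ τ =>
    ∏ y : Λ, (if y = x then A else (1 : Matrix (Fin (n + 1)) (Fin (n + 1)) ℂ)) (σ y) (τ y)

/-- Nearest neighbours: `|x - y|₁ = 1`. -/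
def IsNN (x y : Site) : Prop := ∑ i, |x i - y i| = 1

instance (x y : Site) : Decidable (IsNN x y) := by unfold IsNN; infer_instance

/-- `H_Λ = - ∑_{edges {x,y}} S_x · S_y` (free boundary conditions; the sum over ordered pairs
counts each edge twice, hence the factor `1/2`). -/
def hamiltonian (n : ℕ) (Λ : Finset Site) : Matrix (Λ → Fin (n + 1)) (Λ → Fin (n + 1)) ℂ :=
  -((1 / 2 : ℂ) • ∑ x : Λ, ∑ y : Λ,
      if IsNN x.1 y.1 then ∑ a : Fin 3, siteOp x (spin n a) * siteOp y (spin n a) else 0)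

/-- `M_Λ = ∑_x S³_x`. -/
def magnetization (n : ℕ) (Λ : Finset Site) : Matrix (Λ → Fin (n + 1)) (Λ → Fin (n + 1)) ℂ :=
  ∑ x : Λ, siteOp x (spin n 2)

/-- Finite-volume pressure `(β |Λ|)⁻¹ log Tr exp(-β (H_Λ - h M_Λ))`. -/
def finPressure (n : ℕ) (Λ : Finset Site) (β h : ℝ) : ℝ :=
  (β * Λ.card)⁻¹ * Real.log
    (Matrix.trace (NormedSpace.exp
      (-(β : ℂ) • (hamiltonian n Λ - (h : ℂ) • magnetization n Λ)))).re

/-- `Λ_N = {-N, …, N}³`. -/
def box (N : ℕ) : Finset Site := Finset.Icc (fun _ => -(N : ℤ)) (fun _ => (N : ℤ))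

/-- Infinite-volume pressure `p_β(h)`. -/
def pressure (n : ℕ) (β h : ℝ) : ℝ := limUnder atTop fun N : ℕ => finPressure n (box N) β h

/-- Spontaneous magnetization `m_S(β)`, the right derivative of `p_β` at `0`. -/
def spontMag (n : ℕ) (β : ℝ) : ℝ := derivWithin (pressure n β) (Set.Ioi 0) 0

end

end Vale.Agent.P361
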