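import Vale.Agent.P361.TraceProd

/-!
Superadditivity of the logarithm of the (shifted) partition function.
-/

namespace Vale.Agent.P361

open Matrix Finset

set_option linter.unusedSectionVars false

open scoped ComplexOrder Kronecker

section

variable {d κ : Type*} [Fintype d] [DecidableEq d] [Fintype κ]
  {V : Type*} [Fintype V] [DecidableEq V]
  {V₁ : Type*} [Fintype V₁] [DecidableEq V₁] {V₂ : Type*} [Fintype V₂] [DecidableEq V₂]

/-- Shifted pair interaction `c + ∑ S^a_x S^a_y`. -/
def pairOp (c : ℝ) (S : κ → Matrix d d ℂ) (x y : V) : Matrix (V → d) (V → d) ℂ :=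
  (c : ℂ) • (1 : Matrix (V → d) (V → d) ℂ) + ∑ a, siteOpV x (S a) * siteOpV y (S a)

theorem pairOp_posSemidef {c : ℝ} {S : κ → Matrix d d ℂ} (hS : ∀ a, (S a).IsHermitian)
    (hc : ((c : ℂ) • (1 : Matrix d d ℂ) - ∑ a, S a * S a).PosSemidef) {x y : V} (hxy : x ≠ y) :
    (pairOp c S x y).PosSemidef := by
  have h1 : pairOp c S x y = (1 / 2 : ℂ) • (∑ a, (siteOpV x (S a) + siteOpV y (S a))ᴴ *
      (siteOpV x (S a) + siteOpV y (S a)) +
      (siteOpV x ((c : ℂ) • (1 : Matrix d d ℂ) - ∑ a, S a * S a) +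
       siteOpV y ((c : ℂ) • (1 : Matrix d d ℂ) - ∑ a, S a * S a))) := by
    have h2 : ∀ a, (siteOpV x (S a) + siteOpV y (S a))ᴴ *
        (siteOpV x (S a) + siteOpV y (S a)) =
        siteOpV x (S a * S a) + siteOpV y (S a * S a) +
          (2 : ℂ) • (siteOpV x (S a) * siteOpV y (S a)) := by
      intro a
      rw [Matrix.conjTranspose_add, siteOpV_conjTranspose, siteOpV_conjTranspose, hS a,
        Matrix.add_mul, Matrix.mul_add, Matrix.mul_add, siteOpV_mul, siteOpV_mul,
        siteOpV_commute hxy.symm, two_smul]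
      abel
    simp only [h2, Finset.sum_add_distrib, siteOpV_sub, siteOpV_smul, siteOpV_one, siteOpV_sum,
      pairOp, ← Finset.smul_sum]
    module
  rw [h1]
  refine Matrix.PosSemidef.smul ?_ (by norm_num [Complex.le_def])
  refine Matrix.PosSemidef.add ?_ ((siteOpV_posSemidef x hc).add (siteOpV_posSemidef y hc))
  exact Matrix.posSemidef_sum _ fun a _ => Matrix.posSemidef_conjTranspose_mul_self _

/-- Total shifted exponent. -/
def totOp (b c : ℝ) (S : κ → Matrix d d ℂ) (F : Matrix d d ℂ) (adj : V → V → Prop)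
    [DecidableRel adj] : Matrix (V → d) (V → d) ℂ :=
  (b : ℂ) • (∑ x, ∑ y, if adj x y then pairOp c S x y else 0) + ∑ x, siteOpV x F

theorem totOp_posSemidef {b c : ℝ} (hb : 0 ≤ b) {S : κ → Matrix d d ℂ}
    (hS : ∀ a, (S a).IsHermitian)
    (hc : ((c : ℂ) • (1 : Matrix d d ℂ) - ∑ a, S a * S a).PosSemidef)
    {F : Matrix d d ℂ} (hF : F.PosSemidef) (adj : V → V → Prop) [DecidableRel adj]
    (hadj : ∀ x, ¬ adj x x) : (totOp b c S F adj).PosSemidef := by
  refine Matrix.PosSemidef.add ?_ (Matrix.posSemidef_sum _ fun x _ => siteOpV_posSemidef x hF)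
  refine Matrix.PosSemidef.smul ?_ (by simpa using hb)
  refine Matrix.posSemidef_sum _ fun x _ => Matrix.posSemidef_sum _ fun y _ => ?_
  split_ifs with h
  · refine pairOp_posSemidef hS hc ?_
    rintro rfl
    exact hadj _ h
  · exact Matrix.PosSemidef.zero

/-- Configuration equivalence for a disjoint decomposition of the sites. -/
def confEquiv (f : V₁ ⊕ V₂ ≃ V) : (V₁ → d) × (V₂ → d) ≃ (V → d) :=
  (Equiv.sumArrowEquivProdArrow V₁ V₂ d).symm.trans (Equiv.arrowCongr f (Equiv.refl d))

theorem confEquiv_apply (f : V₁ ⊕ V₂ ≃ V) (p : (V₁ → d) × (V₂ → d)) (w : V₁ ⊕ V₂) :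
    confEquiv f p (f w) = Sum.elim p.1 p.2 w := by
  simp [confEquiv, Equiv.arrowCongr, Equiv.sumArrowEquivProdArrow]

theorem siteOpV_inl (f : V₁ ⊕ V₂ ≃ V) (x : V₁) (A : Matrix d d ℂ) :
    (siteOpV (f (Sum.inl x)) A).submatrix (confEquiv f) (confEquiv f) =
      siteOpV x A ⊗ₖ (1 : Matrix (V₂ → d) (V₂ → d) ℂ) := by
  ext p q
  simp only [Matrix.submatrix_apply, siteOpV, prodOp, Matrix.of_apply, Matrix.kroneckerMap_apply]
  rw [← Equiv.prod_comp f, Fintype.prod_sum_type]
  simp only [confEquiv_apply, Sum.elim_inl, Sum.elim_inr]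
  congr 1
  · refine Finset.prod_congr rfl fun y _ => ?_
    by_cases h : y = x
    · subst h; simp
    · simp [h]
  · rw [← prodOp_one]
    simp [prodOp]

theorem siteOpV_inr (f : V₁ ⊕ V₂ ≃ V) (x : V₂) (A : Matrix d d ℂ) :
    (siteOpV (f (Sum.inr x)) A).submatrix (confEquiv f) (confEquiv f) =
      (1 : Matrix (V₁ → d) (V₁ → d) ℂ) ⊗ₖ siteOpV x A := by
  ext p q
  simp only [Matrix.submatrix_apply, siteOpV, prodOp, Matrix.of_apply, Matrix.kroneckerMap_apply]
  rw [← Equiv.prod_comp f, Fintype.prod_sum_type]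
  simp only [confEquiv_apply, Sum.elim_inl, Sum.elim_inr]
  congr 1
  · rw [← prodOp_one]
    simp [prodOp]
  · refine Finset.prod_congr rfl fun y _ => ?_
    by_cases h : y = x
    · subst h; simp
    · simp [h]

theorem submatrix_sum_eq {m l : Type*} {ω : Type*} (s : Finset ω) (M : ω → Matrix m m ℂ)
    (e : l → m) : (∑ k ∈ s, M k).submatrix e e = ∑ k ∈ s, (M k).submatrix e e := by
  ext i j
  simp [Matrix.sum_apply]

theorem sum_kron {m l : Type*} {ω : Type*} (s : Finset ω) (M : ω → Matrix m m ℂ)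
    (N : Matrix l l ℂ) : (∑ k ∈ s, M k) ⊗ₖ N = ∑ k ∈ s, (M k) ⊗ₖ N := by
  ext i j
  simp [Matrix.sum_apply, Finset.sum_mul]

theorem kron_sum {m l : Type*} {ω : Type*} (s : Finset ω) (M : ω → Matrix m m ℂ)
    (N : Matrix l l ℂ) : N ⊗ₖ (∑ k ∈ s, M k) = ∑ k ∈ s, N ⊗ₖ (M k) := by
  ext i j
  simp [Matrix.sum_apply, Finset.mul_sum]

theorem pairOp_inl (c : ℝ) (S : κ → Matrix d d ℂ) (f : V₁ ⊕ V₂ ≃ V) (x y : V₁) :
    (pairOp c S (f (Sum.inl x)) (f (Sum.inl y))).submatrix (confEquiv f) (confEquiv f) =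
      pairOp c S x y ⊗ₖ (1 : Matrix (V₂ → d) (V₂ → d) ℂ) := by
  simp only [pairOp, Matrix.submatrix_add, Pi.add_apply, Matrix.submatrix_smul, Pi.smul_apply,
    submatrix_sum_eq, Matrix.add_kronecker, Matrix.smul_kronecker, sum_kron,
    Matrix.submatrix_one_equiv, Matrix.one_kronecker_one]
  congr 1
  refine Finset.sum_congr rfl fun a _ => ?_
  rw [← Matrix.submatrix_mul_equiv _ _ _ (confEquiv f) _, siteOpV_inl, siteOpV_inl,
    ← Matrix.mul_kronecker_mul, Matrix.mul_one]

theorem pairOp_inr (c : ℝ) (S : κ → Matrix d d ℂ) (f : V₁ ⊕ V₂ ≃ V) (x y : V₂) :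
    (pairOp c S (f (Sum.inr x)) (f (Sum.inr y))).submatrix (confEquiv f) (confEquiv f) =
      (1 : Matrix (V₁ → d) (V₁ → d) ℂ) ⊗ₖ pairOp c S x y := by
  simp only [pairOp, Matrix.submatrix_add, Pi.add_apply, Matrix.submatrix_smul, Pi.smul_apply,
    submatrix_sum_eq, Matrix.kronecker_add, Matrix.kronecker_smul, kron_sum,
    Matrix.submatrix_one_equiv, Matrix.one_kronecker_one]
  congr 1
  refine Finset.sum_congr rfl fun a _ => ?_
  rw [← Matrix.submatrix_mul_equiv _ _ _ (confEquiv f) _, siteOpV_inr, siteOpV_inr,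
    ← Matrix.mul_kronecker_mul, Matrix.mul_one]

/-- Splitting of the total exponent. -/
theorem totOp_split {b c : ℝ} (hb : 0 ≤ b) {S : κ → Matrix d d ℂ}
    (hS : ∀ a, (S a).IsHermitian)
    (hc : ((c : ℂ) • (1 : Matrix d d ℂ) - ∑ a, S a * S a).PosSemidef)
    (F : Matrix d d ℂ) (adj : V → V → Prop) [DecidableRel adj] (f : V₁ ⊕ V₂ ≃ V) :
    ((totOp b c S F adj).submatrix (confEquiv f) (confEquiv f) -
      (totOp b c S F (fun x y : V₁ => adj (f (Sum.inl x)) (f (Sum.inl y))) ⊗ₖ
          (1 : Matrix (V₂ → d) (V₂ → d) ℂ) +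
        (1 : Matrix (V₁ → d) (V₁ → d) ℂ) ⊗ₖ
          totOp b c S F (fun x y : V₂ => adj (f (Sum.inr x)) (f (Sum.inr y))))).PosSemidef := by
  have h1 : (totOp b c S F adj).submatrix (confEquiv f) (confEquiv f) -
      (totOp b c S F (fun x y : V₁ => adj (f (Sum.inl x)) (f (Sum.inl y))) ⊗ₖ
          (1 : Matrix (V₂ → d) (V₂ → d) ℂ) +
        (1 : Matrix (V₁ → d) (V₁ → d) ℂ) ⊗ₖ
          totOp b c S F (fun x y : V₂ => adj (f (Sum.inr x)) (f (Sum.inr y)))) =
      (b : ℂ) • ((∑ x : V₁, ∑ y : V₂, if adj (f (Sum.inl x)) (f (Sum.inr y)) then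
          (pairOp c S (f (Sum.inl x)) (f (Sum.inr y))).submatrix (confEquiv f) (confEquiv f)
          else 0) +
        (∑ x : V₂, ∑ y : V₁, if adj (f (Sum.inr x)) (f (Sum.inl y)) then
          (pairOp c S (f (Sum.inr x)) (f (Sum.inl y))).submatrix (confEquiv f) (confEquiv f)
          else 0)) := by
    have h2 : ∀ x y : V, (if adj x y then pairOp c S x y else 0).submatrix
        (confEquiv f) (confEquiv f) = if adj x y then (pairOp c S x y).submatrix
        (confEquiv f) (confEquiv f) else 0 := by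
      intro x y
      split_ifs
      · rfl
      · ext i j; rfl
    have h3 : ∀ x y : V₁, (if adj (f (Sum.inl x)) (f (Sum.inl y)) then pairOp c S x y
        else 0) ⊗ₖ (1 : Matrix (V₂ → d) (V₂ → d) ℂ) =
        if adj (f (Sum.inl x)) (f (Sum.inl y)) then
          pairOp c S x y ⊗ₖ (1 : Matrix (V₂ → d) (V₂ → d) ℂ) else 0 := by
      intro x y
      split_ifs
      · rfl
      · exact Matrix.zero_kronecker _
    have h4 : ∀ x y : V₂, (1 : Matrix (V₁ → d) (V₁ → d) ℂ) ⊗ₖ
        (if adj (f (Sum.inr x)) (f (Sum.inr y)) then pairOp c S x y else 0) =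
        if adj (f (Sum.inr x)) (f (Sum.inr y)) then
          (1 : Matrix (V₁ → d) (V₁ → d) ℂ) ⊗ₖ pairOp c S x y else 0 := by
      intro x y
      split_ifs
      · rfl
      · exact Matrix.kronecker_zero _
    simp only [totOp, Matrix.submatrix_add, Pi.add_apply, Matrix.submatrix_smul, Pi.smul_apply,
      submatrix_sum_eq, h2, Matrix.add_kronecker, Matrix.smul_kronecker, sum_kron,
      Matrix.kronecker_add, Matrix.kronecker_smul, kron_sum, h3, h4]
    simp only [← Equiv.sum_comp f, Fintype.sum_sum_type, pairOp_inl, pairOp_inr, siteOpV_inl,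
      siteOpV_inr, Finset.sum_add_distrib, smul_add]
    abel
  rw [h1]
  refine Matrix.PosSemidef.smul ?_ (by simpa using hb)
  refine Matrix.PosSemidef.add ?_ ?_
  · refine Matrix.posSemidef_sum _ fun x _ => Matrix.posSemidef_sum _ fun y _ => ?_
    split_ifs
    · refine Matrix.PosSemidef.submatrix (pairOp_posSemidef hS hc ?_) _
      intro h
      simpa using f.injective h
    · exact Matrix.PosSemidef.zero
  · refine Matrix.posSemidef_sum _ fun x _ => Matrix.posSemidef_sum _ fun y _ => ?_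
    split_ifs
    · refine Matrix.PosSemidef.submatrix (pairOp_posSemidef hS hc ?_) _
      intro h
      simpa using f.injective h
    · exact Matrix.PosSemidef.zero

/-- Logarithm of the shifted partition function. -/
noncomputable def logZ (b c : ℝ) (S : κ → Matrix d d ℂ) (F : Matrix d d ℂ) (adj : V → V → Prop)
    [DecidableRel adj] : ℝ :=
  Real.log (trace (NormedSpace.exp (totOp b c S F adj))).re

theorem totOp_isHermitian (b c : ℝ) {S : κ → Matrix d d ℂ} (hS : ∀ a, (S a).IsHermitian)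
    {F : Matrix d d ℂ} (hF : F.IsHermitian) (adj : V → V → Prop) [DecidableRel adj]
    (hadj : ∀ x, ¬ adj x x) : (totOp b c S F adj).IsHermitian := by
  have h1 : ∀ x y : V, x ≠ y → (pairOp c S x y).IsHermitian := by
    intro x y hxy
    rw [Matrix.IsHermitian, pairOp, Matrix.conjTranspose_add, Matrix.conjTranspose_smul,
      Matrix.conjTranspose_one, Matrix.conjTranspose_sum]
    congr 1
    · simp
    · refine Finset.sum_congr rfl fun a _ => ?_
      rw [Matrix.conjTranspose_mul, siteOpV_conjTranspose, siteOpV_conjTranspose, hS a,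
        siteOpV_commute hxy.symm]
  rw [Matrix.IsHermitian, totOp, Matrix.conjTranspose_add, Matrix.conjTranspose_smul,
    Matrix.conjTranspose_sum, Matrix.conjTranspose_sum]
  congr 1
  · congr 1
    · simp
    · refine Finset.sum_congr rfl fun x _ => ?_
      rw [Matrix.conjTranspose_sum]
      refine Finset.sum_congr rfl fun y _ => ?_
      split_ifs with h
      · exact h1 x y (by rintro rfl; exact hadj _ h)
      · simp
  · refine Finset.sum_congr rfl fun x _ => ?_
    exact siteOpV_isHermitian x hF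

section props

variable {b c : ℝ} (hb : 0 ≤ b) {S : κ → Matrix d d ℂ} (hS : ∀ a, (S a).IsHermitian)
  (hc : ((c : ℂ) • (1 : Matrix d d ℂ) - ∑ a, S a * S a).PosSemidef)
  {F : Matrix d d ℂ} (hF : F.PosSemidef)

include hb hS hc hF

theorem logZ_superadd [Nonempty d] (adj : V → V → Prop) [DecidableRel adj]
    (hadj : ∀ x, ¬ adj x x) (f : V₁ ⊕ V₂ ≃ V) :
    logZ b c S F (fun x y : V₁ => adj (f (Sum.inl x)) (f (Sum.inl y))) +
      logZ b c S F (fun x y : V₂ => adj (f (Sum.inr x)) (f (Sum.inr y))) ≤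
      logZ b c S F adj := by
  have h1 := totOp_isHermitian b c hS hF.1 (fun x y : V₁ => adj (f (Sum.inl x)) (f (Sum.inl y)))
    (fun x => hadj _)
  have h2 := totOp_isHermitian b c hS hF.1 (fun x y : V₂ => adj (f (Sum.inr x)) (f (Sum.inr y)))
    (fun x => hadj _)
  have h3 := totOp_isHermitian b c hS hF.1 adj hadj
  have h := trace_exp_prod_le (confEquiv f) h1 h2 h3 (totOp_split hb hS hc F adj f)
  have p1 := trace_exp_pos h1
  have p2 := trace_exp_pos h2
  unfold logZ
  rw [← Real.log_mul p1.ne' p2.ne']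
  exact Real.log_le_log (mul_pos p1 p2) h

theorem logZ_nonneg [Nonempty d] (adj : V → V → Prop) [DecidableRel adj]
    (hadj : ∀ x, ¬ adj x x) : 0 ≤ logZ b c S F adj := by
  have h1 := totOp_isHermitian b c hS hF.1 adj hadj
  have h2 := totOp_posSemidef hb hS hc hF adj hadj
  have h3 := trace_exp_mono (X := (0 : Matrix (V → d) (V → d) ℂ)) Matrix.isHermitian_zero h1
    (by simpa using h2)
  unfold logZ
  refine Real.log_nonneg (le_trans ?_ h3)
  rw [NormedSpace.exp_zero, Matrix.trace_one, Complex.natCast_re]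
  exact_mod_cast Fintype.card_pos

end props

theorem siteOpV_relabel {W : Type*} [Fintype W] [DecidableEq W] (g : V ≃ W) (x : V)
    (A : Matrix d d ℂ) :
    (siteOpV (g x) A).submatrix (Equiv.arrowCongr g (Equiv.refl d))
      (Equiv.arrowCongr g (Equiv.refl d)) = siteOpV x A := by
  ext p q
  simp only [Matrix.submatrix_apply, siteOpV, prodOp, Matrix.of_apply]
  rw [← Equiv.prod_comp g]
  refine Finset.prod_congr rfl fun y _ => ?_
  have hp : ∀ r : V → d, (g.arrowCongr (Equiv.refl d)) r (g y) = r y := by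
    intro r; simp [Equiv.arrowCongr]
  rw [hp, hp]
  by_cases h : y = x
  · subst h; simp
  · simp [h]

theorem logZ_relabel {W : Type*} [Fintype W] [DecidableEq W] (g : V ≃ W) (b c : ℝ)
    (S : κ → Matrix d d ℂ) (F : Matrix d d ℂ) (adj : W → W → Prop) [DecidableRel adj] :
    logZ b c S F (fun x y : V => adj (g x) (g y)) = logZ b c S F adj := by
  have h : (totOp b c S F adj).submatrix (Equiv.arrowCongr g (Equiv.refl d))
      (Equiv.arrowCongr g (Equiv.refl d)) = totOp b c S F (fun x y : V => adj (g x) (g y)) := by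
    have h2 : ∀ x y : W, (if adj x y then pairOp c S x y else 0).submatrix
        (Equiv.arrowCongr g (Equiv.refl d)) (Equiv.arrowCongr g (Equiv.refl d)) =
        if adj x y then (pairOp c S x y).submatrix
        (Equiv.arrowCongr g (Equiv.refl d)) (Equiv.arrowCongr g (Equiv.refl d)) else 0 := by
      intro x y
      split_ifs
      · rfl
      · ext i j; rfl
    have h5 : ∀ x y : V, (pairOp c S (g x) (g y)).submatrix
        (Equiv.arrowCongr g (Equiv.refl d)) (Equiv.arrowCongr g (Equiv.refl d)) =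
        pairOp c S x y := by
      intro x y
      simp only [pairOp, Matrix.submatrix_add, Pi.add_apply, Matrix.submatrix_smul, Pi.smul_apply,
        submatrix_sum_eq, Matrix.submatrix_one_equiv]
      congr 1
      refine Finset.sum_congr rfl fun a _ => ?_
      rw [← Matrix.submatrix_mul_equiv _ _ _ (Equiv.arrowCongr g (Equiv.refl d)) _,
        siteOpV_relabel, siteOpV_relabel]
    simp only [totOp, Matrix.submatrix_add, Pi.add_apply, Matrix.submatrix_smul, Pi.smul_apply,
      submatrix_sum_eq, h2]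
    simp only [← Equiv.sum_comp g, h5, siteOpV_relabel]
  unfold logZ
  rw [← h, trace_exp_submatrix]

theorem pairOp_upper {c : ℝ} {S : κ → Matrix d d ℂ} (hS : ∀ a, (S a).IsHermitian)
    (hc : ((c : ℂ) • (1 : Matrix d d ℂ) - ∑ a, S a * S a).PosSemidef) {x y : V} (hxy : x ≠ y) :
    (((2 * c : ℝ) : ℂ) • (1 : Matrix (V → d) (V → d) ℂ) - pairOp c S x y).PosSemidef := by
  have h1 : ((2 * c : ℝ) : ℂ) • (1 : Matrix (V → d) (V → d) ℂ) - pairOp c S x y =
      (1 / 2 : ℂ) • (∑ a, (siteOpV x (S a) - siteOpV y (S a))ᴴ *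
      (siteOpV x (S a) - siteOpV y (S a)) +
      (siteOpV x ((c : ℂ) • (1 : Matrix d d ℂ) - ∑ a, S a * S a) +
       siteOpV y ((c : ℂ) • (1 : Matrix d d ℂ) - ∑ a, S a * S a))) := by
    have h2 : ∀ a, (siteOpV x (S a) - siteOpV y (S a))ᴴ *
        (siteOpV x (S a) - siteOpV y (S a)) =
        siteOpV x (S a * S a) + siteOpV y (S a * S a) -
          (2 : ℂ) • (siteOpV x (S a) * siteOpV y (S a)) := by
      intro a
      rw [Matrix.conjTranspose_sub, siteOpV_conjTranspose, siteOpV_conjTranspose, hS a,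
        Matrix.sub_mul, Matrix.mul_sub, Matrix.mul_sub, siteOpV_mul, siteOpV_mul,
        siteOpV_commute hxy.symm, two_smul]
      abel
    simp only [h2, Finset.sum_add_distrib, Finset.sum_sub_distrib, siteOpV_sub, siteOpV_smul,
      siteOpV_one, siteOpV_sum, pairOp, ← Finset.smul_sum]
    push_cast
    module
  rw [h1]
  refine Matrix.PosSemidef.smul ?_ (by norm_num [Complex.le_def])
  refine Matrix.PosSemidef.add ?_ ((siteOpV_posSemidef x hc).add (siteOpV_posSemidef y hc))
  exact Matrix.posSemidef_sum _ fun a _ => Matrix.posSemidef_conjTranspose_mul_self _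

theorem trace_exp_real_smul_one (k : ℝ) :
    (trace (NormedSpace.exp ((k : ℂ) • (1 : Matrix V V ℂ)))).re = Fintype.card V * Real.exp k := by
  have h : (k : ℂ) • (1 : Matrix V V ℂ) = diagonal (fun _ => (k : ℂ)) := by
    ext i j
    by_cases hij : i = j
    · subst hij; simp
    · simp [hij]
  rw [h, Matrix.exp_diagonal, Matrix.trace_diagonal]
  simp [← Complex.exp_eq_exp_ℂ, ← Complex.ofReal_exp]

/-- Adding a real multiple of the identity to the exponent. -/
theorem trace_exp_add_smul_one {X : Matrix V V ℂ} (k : ℝ) :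
    (trace (NormedSpace.exp (X + (k : ℂ) • (1 : Matrix V V ℂ)))).re =
      Real.exp k * (trace (NormedSpace.exp X)).re := by
  have hcomm : Commute X ((k : ℂ) • (1 : Matrix V V ℂ)) :=
    (Commute.one_right X).smul_right (k : ℂ)
  have h : (k : ℂ) • (1 : Matrix V V ℂ) = diagonal (fun _ => (k : ℂ)) := by
    ext i j
    by_cases hij : i = j
    · subst hij; simp
    · simp [hij]
  rw [Matrix.exp_add_of_commute _ _ hcomm, h, Matrix.exp_diagonal]
  have h2 : diagonal (NormedSpace.exp fun _ : V => (k : ℂ)) =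
      ((Real.exp k : ℝ) : ℂ) • (1 : Matrix V V ℂ) := by
    ext i j
    by_cases hij : i = j
    · subst hij; simp [Pi.exp_def, ← Complex.exp_eq_exp_ℂ]
    · simp [hij]
  rw [h2, Matrix.mul_smul, Matrix.mul_one, Matrix.trace_smul, smul_eq_mul, Complex.re_ofReal_mul]

theorem logZ_upper [Nonempty d] {b c φ : ℝ} (hb : 0 ≤ b) {S : κ → Matrix d d ℂ}
    (hS : ∀ a, (S a).IsHermitian)
    (hc : ((c : ℂ) • (1 : Matrix d d ℂ) - ∑ a, S a * S a).PosSemidef) (hc0 : 0 ≤ c)
    {F : Matrix d d ℂ} (hF : F.IsHermitian)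
    (hφ : ((φ : ℂ) • (1 : Matrix d d ℂ) - F).PosSemidef)
    (adj : V → V → Prop) [DecidableRel adj] (hadj : ∀ x, ¬ adj x x) (K : ℝ)
    (hK : ∀ x, ((Finset.univ.filter fun y => adj x y).card : ℝ) ≤ K) :
    logZ b c S F adj ≤ (Real.log (Fintype.card d) + 2 * b * c * K + φ) * Fintype.card V := by
  have hH := totOp_isHermitian b c hS hF adj hadj
  set T : ℝ := (2 * b * c * K + φ) * Fintype.card V with hT
  have key : ((T : ℂ) • (1 : Matrix (V → d) (V → d) ℂ) - totOp b c S F adj).PosSemidef := by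
    have e1 : (T : ℂ) • (1 : Matrix (V → d) (V → d) ℂ) - totOp b c S F adj =
        (∑ x : V, siteOpV x ((φ : ℂ) • (1 : Matrix d d ℂ) - F)) +
        (b : ℂ) • ((∑ x : V, ∑ y : V, if adj x y then
          (((2 * c : ℝ) : ℂ) • (1 : Matrix (V → d) (V → d) ℂ) - pairOp c S x y) else 0) +
        ∑ x : V, ((2 * c * (K - (Finset.univ.filter fun y => adj x y).card) : ℝ) : ℂ) •
          (1 : Matrix (V → d) (V → d) ℂ)) := by
      have e2 : ∀ x : V, (∑ y : V, if adj x y then
          (((2 * c : ℝ) : ℂ) • (1 : Matrix (V → d) (V → d) ℂ) - pairOp c S x y) else 0) =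
          (((Finset.univ.filter fun y => adj x y).card : ℝ) : ℂ) • (((2 * c : ℝ) : ℂ) •
            (1 : Matrix (V → d) (V → d) ℂ)) - ∑ y : V, if adj x y then pairOp c S x y else 0 := by
        intro x
        rw [← Finset.sum_filter, ← Finset.sum_filter, Finset.sum_sub_distrib, Finset.sum_const]
        congr 1
        ext i j
        simp
      simp only [e2, Finset.sum_sub_distrib, siteOpV_sub, siteOpV_smul, siteOpV_one, totOp, hT]
      ext i j
      simp only [Matrix.add_apply, Matrix.sub_apply, Matrix.smul_apply, smul_eq_mul,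
        Matrix.sum_apply]
      push_cast
      simp only [mul_sub, Finset.sum_sub_distrib, Finset.sum_const, Finset.card_univ, nsmul_eq_mul,
        ← Finset.mul_sum, ← Finset.sum_mul]
      ring
    rw [e1]
    refine (Matrix.posSemidef_sum _ fun x _ => siteOpV_posSemidef x hφ).add ?_
    refine Matrix.PosSemidef.smul ?_ (by simpa using hb)
    refine Matrix.PosSemidef.add ?_ ?_
    · refine Matrix.posSemidef_sum _ fun x _ => Matrix.posSemidef_sum _ fun y _ => ?_
      split_ifs with h
      · exact pairOp_upper hS hc (by rintro rfl; exact hadj _ h)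
      · exact Matrix.PosSemidef.zero
    · refine Matrix.posSemidef_sum _ fun x _ => ?_
      refine Matrix.PosSemidef.one.smul ?_
      rw [Complex.zero_le_real]
      have := hK x
      have : 0 ≤ K - ((Finset.univ.filter fun y => adj x y).card : ℝ) := by linarith
      positivity
  have h1 : ((T : ℂ) • (1 : Matrix (V → d) (V → d) ℂ)).IsHermitian := by
    rw [Matrix.IsHermitian, Matrix.conjTranspose_smul, Matrix.conjTranspose_one]
    simp
  have h2 := trace_exp_mono hH h1 key
  rw [trace_exp_real_smul_one] at h2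
  have h3 := Real.log_le_log (trace_exp_pos hH) h2
  unfold logZ
  refine h3.trans ?_
  have hd : (0 : ℝ) < Fintype.card d := by exact_mod_cast Fintype.card_pos
  rw [Fintype.card_fun, Nat.cast_pow, Real.log_mul (by positivity) (Real.exp_pos _).ne',
    Real.log_pow, Real.log_exp, hT]
  apply le_of_eq
  ring

end

end Vale.Agent.P361
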