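import Vale.Agent.P361.TraceProd

/-!
A Bogoliubov-type inequality for Gibbs states (in unnormalized form).
-/

namespace Vale.Agent.P361

open Matrix Finset
open scoped ComplexOrder

theorem convexOn_sub_one_mul_log :
    ConvexOn ℝ (Set.Ioi 0) fun u : ℝ => (u - 1) * Real.log u := by
  have h1 : ConvexOn ℝ (Set.Ioi 0) fun u : ℝ => u * Real.log u :=
    Real.convexOn_mul_log.subset (fun x hx => Set.mem_Ici.2 (le_of_lt hx)) (convex_Ioi 0)
  have h2 : ConvexOn ℝ (Set.Ioi 0) fun u : ℝ => -Real.log u :=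
    strictConcaveOn_log_Ioi.concaveOn.neg
  refine (h1.add h2).congr ?_
  intro u _
  simp only [Pi.add_apply]
  ring

/-- Weighted Jensen consequence. -/
theorem jensen_weights {κ : Type*} (s : Finset κ) (q u : κ → ℝ) (hq : ∀ i ∈ s, 0 ≤ q i)
    (hu : ∀ i ∈ s, 0 < u i) (hC : 0 < ∑ i ∈ s, q i * (u i - 1)) {T : ℝ}
    (hT : ∑ i ∈ s, q i * ((u i - 1) * Real.log (u i)) ≤ T * ∑ i ∈ s, q i * (u i - 1)) :
    (∑ i ∈ s, q i * (u i - 1)) / (Real.exp T - 1) ≤ ∑ i ∈ s, q i := by
  set C := ∑ i ∈ s, q i * (u i - 1) with hCdef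
  set D := ∑ i ∈ s, q i * ((u i - 1) * Real.log (u i)) with hDdef
  set N := ∑ i ∈ s, q i with hNdef
  have hN0 : 0 ≤ N := Finset.sum_nonneg hq
  have hN : 0 < N := by
    rcases hN0.lt_or_eq with h | h
    · exact h
    · exfalso
      have hz : ∀ i ∈ s, q i = 0 := (Finset.sum_eq_zero_iff_of_nonneg hq).1 h.symm
      have : C = 0 := by
        rw [hCdef]
        exact Finset.sum_eq_zero fun i hi => by rw [hz i hi, zero_mul]
      linarith
  have hJ := convexOn_sub_one_mul_log.map_sum_le (t := s) (w := fun i => q i / N) (p := u)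
    (fun i hi => div_nonneg (hq i hi) hN0)
    (by rw [← Finset.sum_div]; exact div_self hN.ne') hu
  simp only [smul_eq_mul] at hJ
  have e1 : ∑ i ∈ s, q i / N * u i = 1 + C / N := by
    have : ∑ i ∈ s, q i / N * u i = (∑ i ∈ s, (q i * (u i - 1) + q i)) / N := by
      rw [Finset.sum_div]
      refine Finset.sum_congr rfl fun i _ => ?_
      ring
    rw [this, Finset.sum_add_distrib, add_div, ← hCdef, ← hNdef, div_self hN.ne', add_comm]
  have e2 : ∑ i ∈ s, q i / N * ((u i - 1) * Real.log (u i)) = D / N := by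
    rw [hDdef, Finset.sum_div]
    refine Finset.sum_congr rfl fun i _ => ?_
    ring
  rw [e1, e2] at hJ
  have h1 : Real.log (1 + C / N) ≤ D / C := by
    rw [le_div_iff₀ hC]
    have h2 : (1 + C / N - 1) * Real.log (1 + C / N) * N ≤ D / N * N :=
      mul_le_mul_of_nonneg_right hJ hN0
    have h3 : (1 + C / N - 1) * Real.log (1 + C / N) * N = Real.log (1 + C / N) * C := by
      field_simp
      ring
    have h4 : D / N * N = D := by field_simp
    linarith
  have hpos : 0 < 1 + C / N := by positivity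
  have h1' : Real.log (1 + C / N) ≤ T := h1.trans (by rw [div_le_iff₀ hC]; exact hT)
  have h2 : 1 + C / N ≤ Real.exp T := by
    calc 1 + C / N = Real.exp (Real.log (1 + C / N)) := (Real.exp_log hpos).symm
      _ ≤ _ := Real.exp_le_exp.2 h1'
  have h3 : C / N ≤ Real.exp T - 1 := by linarith
  have h4 : 0 < C / N := by positivity
  rw [div_le_iff₀ (lt_of_lt_of_le h4 h3)]
  calc C = N * (C / N) := by field_simp
    _ ≤ N * (Real.exp T - 1) := mul_le_mul_of_nonneg_left h3 hN0

variable {ι : Type*} [Fintype ι] [DecidableEq ι]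

/-- Expansions in the eigenbasis. -/
theorem trace_star_mul {X : Matrix ι ι ℂ} (hX : X.IsHermitian) (A : Matrix ι ι ℂ) :
    (trace (NormedSpace.exp X * (star A * A))).re = ∑ i, ∑ j,
      Real.exp (hX.eigenvalues j) * ‖(star (hX.eigenvectorUnitary : Matrix ι ι ℂ) * A *
        (hX.eigenvectorUnitary : Matrix ι ι ℂ)) i j‖ ^ 2 := by
  set U := (hX.eigenvectorUnitary : Matrix ι ι ℂ) with hU
  have hUU : U * star U = 1 := Unitary.coe_mul_star_self _
  set B := star U * A * U with hB
  rw [trace_exp_mul hX, Complex.re_sum, Finset.sum_comm]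
  refine Finset.sum_congr rfl fun j _ => ?_
  rw [Complex.re_ofReal_mul]
  have h1 : star U * (star A * A) * U = star B * B := by
    rw [hB]
    simp only [star_mul, star_star]
    calc star U * (star A * A) * U = star U * star A * 1 * A * U := by
          rw [Matrix.mul_one]; simp only [Matrix.mul_assoc]
      _ = _ := by rw [← hUU]; simp only [Matrix.mul_assoc]
  rw [h1, Matrix.mul_apply, Complex.re_sum, Finset.mul_sum]
  refine Finset.sum_congr rfl fun i _ => ?_
  congr 1
  rw [Matrix.star_apply, Complex.star_def, Complex.conj_mul']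
  norm_cast

theorem trace_mul_star {X : Matrix ι ι ℂ} (hX : X.IsHermitian) (A : Matrix ι ι ℂ) :
    (trace (NormedSpace.exp X * (A * star A))).re = ∑ i, ∑ j,
      Real.exp (hX.eigenvalues i) * ‖(star (hX.eigenvectorUnitary : Matrix ι ι ℂ) * A *
        (hX.eigenvectorUnitary : Matrix ι ι ℂ)) i j‖ ^ 2 := by
  set U := (hX.eigenvectorUnitary : Matrix ι ι ℂ) with hU
  have hUU : U * star U = 1 := Unitary.coe_mul_star_self _
  set B := star U * A * U with hB
  rw [trace_exp_mul hX, Complex.re_sum]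
  refine Finset.sum_congr rfl fun i _ => ?_
  rw [Complex.re_ofReal_mul]
  have h1 : star U * (A * star A) * U = B * star B := by
    rw [hB]
    simp only [star_mul, star_star]
    calc star U * (A * star A) * U = star U * A * 1 * star A * U := by
          rw [Matrix.mul_one]; simp only [Matrix.mul_assoc]
      _ = _ := by rw [← hUU]; simp only [Matrix.mul_assoc]
  rw [h1, Matrix.mul_apply, Complex.re_sum, Finset.mul_sum]
  refine Finset.sum_congr rfl fun j _ => ?_
  congr 1
  rw [Matrix.star_apply, Complex.star_def, Complex.mul_conj']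
  norm_cast

/-- `[A, [A*, X]]`. -/
def dblComm (A X : Matrix ι ι ℂ) : Matrix ι ι ℂ :=
  A * (star A * X - X * star A) - (star A * X - X * star A) * A

theorem trace_dblComm {X : Matrix ι ι ℂ} (hX : X.IsHermitian) (A : Matrix ι ι ℂ) :
    (trace (NormedSpace.exp X * dblComm A X)).re = ∑ i, ∑ j,
      (Real.exp (hX.eigenvalues i) - Real.exp (hX.eigenvalues j)) *
      (hX.eigenvalues i - hX.eigenvalues j) *
      ‖(star (hX.eigenvectorUnitary : Matrix ι ι ℂ) * A *
        (hX.eigenvectorUnitary : Matrix ι ι ℂ)) i j‖ ^ 2 := by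
  set U := (hX.eigenvectorUnitary : Matrix ι ι ℂ) with hU
  have hUU : U * star U = 1 := Unitary.coe_mul_star_self _
  set B := star U * A * U with hB
  set Λ : Matrix ι ι ℂ := diagonal (fun i => (hX.eigenvalues i : ℂ)) with hΛ
  have hd : star U * X * U = Λ := diag_conj_eigen hX
  set G : Matrix ι ι ℂ := star B * Λ - Λ * star B with hG
  have hGij : ∀ i j, G j i = star (B i j) * ((hX.eigenvalues i : ℂ) - (hX.eigenvalues j : ℂ)) := by
    intro i j
    rw [hG, Matrix.sub_apply, hΛ, Matrix.mul_diagonal, Matrix.diagonal_mul, Matrix.star_apply]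
    ring
  have hins : ∀ P Q : Matrix ι ι ℂ, star U * (P * Q) * U = (star U * P * U) * (star U * Q * U) := by
    intro P Q
    calc star U * (P * Q) * U = star U * P * 1 * Q * U := by
          rw [Matrix.mul_one]; simp only [Matrix.mul_assoc]
      _ = _ := by rw [← hUU]; simp only [Matrix.mul_assoc]
  have hsB : star U * star A * U = star B := by
    rw [hB]; simp only [star_mul, star_star, Matrix.mul_assoc]
  have hGc : star U * (star A * X - X * star A) * U = G := by
    rw [Matrix.mul_sub, Matrix.sub_mul, hins, hins, hd, hsB]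
  rw [trace_exp_mul hX, ← hU]
  have h1 : ∀ i, (star U * dblComm A X * U) i i = (B * G) i i - (G * B) i i := by
    intro i
    unfold dblComm
    rw [Matrix.mul_sub, Matrix.sub_mul, hins A, hins _ A, hGc, ← hB, Matrix.sub_apply]
  have h0 : ∑ i, ((Real.exp (hX.eigenvalues i) : ℝ) : ℂ) * (star U * dblComm A X * U) i i =
      ∑ i, ((Real.exp (hX.eigenvalues i) : ℝ) : ℂ) * ∑ j, B i j * G j i -
      ∑ i, ((Real.exp (hX.eigenvalues i) : ℝ) : ℂ) * ∑ j, G i j * B j i := by
    rw [← Finset.sum_sub_distrib]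
    refine Finset.sum_congr rfl fun i _ => ?_
    rw [h1 i, mul_sub, Matrix.mul_apply, Matrix.mul_apply]
  rw [h0]
  have h2 : ∀ i j, B i j * G j i = ((‖B i j‖ ^ 2 * (hX.eigenvalues i - hX.eigenvalues j) : ℝ) : ℂ) := by
    intro i j
    rw [hGij, ← mul_assoc, Complex.star_def, Complex.mul_conj']
    push_cast
    rfl
  have h3 : ∀ i j, G i j * B j i = ((‖B j i‖ ^ 2 * (hX.eigenvalues j - hX.eigenvalues i) : ℝ) : ℂ) := by
    intro i j
    rw [hGij, mul_comm, ← mul_assoc, Complex.star_def, Complex.mul_conj']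
    push_cast
    rfl
  simp only [h2, h3]
  have h4 : ∑ i, ((Real.exp (hX.eigenvalues i) : ℝ) : ℂ) * ∑ j,
      ((‖B j i‖ ^ 2 * (hX.eigenvalues j - hX.eigenvalues i) : ℝ) : ℂ) =
      ∑ i, ∑ j, ((Real.exp (hX.eigenvalues j) * (‖B i j‖ ^ 2 *
        (hX.eigenvalues i - hX.eigenvalues j)) : ℝ) : ℂ) := by
    rw [Finset.sum_comm' (s := Finset.univ) (t := fun _ => Finset.univ)
      (s' := fun _ => Finset.univ) (t' := Finset.univ) (by simp)]
    refine Finset.sum_congr rfl fun i _ => ?_
    rw [Finset.mul_sum]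
    refine Finset.sum_congr rfl fun j _ => ?_
    push_cast
    ring
  rw [h4]
  have h5 : ∑ i, ((Real.exp (hX.eigenvalues i) : ℝ) : ℂ) * ∑ j,
      ((‖B i j‖ ^ 2 * (hX.eigenvalues i - hX.eigenvalues j) : ℝ) : ℂ) =
      ∑ i, ∑ j, ((Real.exp (hX.eigenvalues i) * (‖B i j‖ ^ 2 *
        (hX.eigenvalues i - hX.eigenvalues j)) : ℝ) : ℂ) := by
    refine Finset.sum_congr rfl fun i _ => ?_
    rw [Finset.mul_sum]
    refine Finset.sum_congr rfl fun j _ => ?_
    push_cast
    ring
  rw [h5, ← Finset.sum_sub_distrib]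
  have h6 : (∑ i, (∑ j, ((Real.exp (hX.eigenvalues i) * (‖B i j‖ ^ 2 *
        (hX.eigenvalues i - hX.eigenvalues j)) : ℝ) : ℂ) - ∑ j,
        ((Real.exp (hX.eigenvalues j) * (‖B i j‖ ^ 2 *
        (hX.eigenvalues i - hX.eigenvalues j)) : ℝ) : ℂ))) =
      ((∑ i, ∑ j, (Real.exp (hX.eigenvalues i) - Real.exp (hX.eigenvalues j)) *
      (hX.eigenvalues i - hX.eigenvalues j) * ‖B i j‖ ^ 2 : ℝ) : ℂ) := by
    push_cast
    refine Finset.sum_congr rfl fun i _ => ?_
    rw [← Finset.sum_sub_distrib]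
    refine Finset.sum_congr rfl fun j _ => ?_
    ring
  rw [h6, Complex.ofReal_re]

/-- Bogoliubov–Roepstorff inequality for a finite family of operators. -/
theorem roepstorff {κ : Type*} [Fintype κ] {X : Matrix ι ι ℂ} (hX : X.IsHermitian)
    (A : κ → Matrix ι ι ℂ)
    (hC : 0 < ∑ a, (trace (NormedSpace.exp X * (A a * star (A a) - star (A a) * A a))).re)
    {T : ℝ} (hT : ∑ a, (trace (NormedSpace.exp X * dblComm (A a) X)).re ≤
      T * ∑ a, (trace (NormedSpace.exp X * (A a * star (A a) - star (A a) * A a))).re) :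
    (∑ a, (trace (NormedSpace.exp X * (A a * star (A a) - star (A a) * A a))).re) /
      (Real.exp T - 1) ≤ ∑ a, (trace (NormedSpace.exp X * (star (A a) * A a))).re := by
  set U := (hX.eigenvectorUnitary : Matrix ι ι ℂ) with hU
  set q : κ × ι × ι → ℝ := fun p => Real.exp (hX.eigenvalues p.2.2) *
    ‖(star U * A p.1 * U) p.2.1 p.2.2‖ ^ 2 with hq
  set u : κ × ι × ι → ℝ := fun p => Real.exp (hX.eigenvalues p.2.1 - hX.eigenvalues p.2.2) with hu
  have hN : ∑ a, (trace (NormedSpace.exp X * (star (A a) * A a))).re = ∑ p, q p := by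
    simp only [trace_star_mul hX, Fintype.sum_prod_type, hq]
    rfl
  have hCC : ∑ a, (trace (NormedSpace.exp X * (A a * star (A a) - star (A a) * A a))).re =
      ∑ p, q p * (u p - 1) := by
    simp only [Matrix.mul_sub, Matrix.trace_sub, Complex.sub_re, trace_star_mul hX,
      trace_mul_star hX, Fintype.sum_prod_type, hq, hu]
    refine Finset.sum_congr rfl fun a _ => ?_
    rw [← Finset.sum_sub_distrib]
    refine Finset.sum_congr rfl fun i _ => ?_
    rw [← Finset.sum_sub_distrib]
    refine Finset.sum_congr rfl fun j _ => ?_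
    rw [Real.exp_sub, ← hU]
    have := (Real.exp_pos (hX.eigenvalues j)).ne'
    field_simp
  have hD : ∑ a, (trace (NormedSpace.exp X * dblComm (A a) X)).re =
      ∑ p, q p * ((u p - 1) * Real.log (u p)) := by
    simp only [trace_dblComm hX, Fintype.sum_prod_type, hq, hu, Real.log_exp]
    refine Finset.sum_congr rfl fun a _ => ?_
    refine Finset.sum_congr rfl fun i _ => ?_
    refine Finset.sum_congr rfl fun j _ => ?_
    rw [Real.exp_sub, ← hU]
    have := (Real.exp_pos (hX.eigenvalues j)).ne'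
    field_simp
  rw [hCC] at hC
  rw [hCC, hD] at hT
  rw [hCC, hN]
  exact jensen_weights Finset.univ q u (fun p _ => by simp only [hq]; positivity)
    (fun p _ => Real.exp_pos _) hC hT

end Vale.Agent.P361
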