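import Vale.Agent.P361.TraceIneq
import Vale.Agent.P361.Defs

/-!
Algebra of one-site operators in a finite tensor product.
-/

namespace Vale.Agent.P361

open Matrix Finset

set_option linter.unusedSectionVars false
open scoped ComplexOrder Kronecker

open scoped MatrixOrder in
theorem exists_factor {m : Type*} [Fintype m] [DecidableEq m] {A : Matrix m m ℂ}
    (hA : A.PosSemidef) : ∃ B : Matrix m m ℂ, A = Bᴴ * B := by
  obtain ⟨b, hb⟩ := CStarAlgebra.nonneg_iff_eq_star_mul_self.mp hA.nonneg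
  exact ⟨b, hb⟩

section General

variable {d : Type*} [Fintype d] [DecidableEq d] {V : Type*} [Fintype V] [DecidableEq V]

/-- Product operator. -/
def prodOp (B : V → Matrix d d ℂ) : Matrix (V → d) (V → d) ℂ :=
  Matrix.of fun σ τ => ∏ y, B y (σ y) (τ y)

theorem prodOp_mul (B C : V → Matrix d d ℂ) :
    prodOp B * prodOp C = prodOp (fun y => B y * C y) := by
  ext σ τ
  simp only [prodOp, Matrix.mul_apply, Matrix.of_apply]
  rw [Finset.prod_univ_sum, Fintype.piFinset_univ]
  refine Finset.sum_congr rfl fun ρ _ => ?_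
  rw [← Finset.prod_mul_distrib]

theorem prodOp_one : prodOp (fun _ : V => (1 : Matrix d d ℂ)) = 1 := by
  ext σ τ
  simp only [prodOp, Matrix.of_apply, Matrix.one_apply]
  by_cases h : σ = τ
  · subst h; simp
  · rw [if_neg h]
    obtain ⟨y, hy⟩ := Function.ne_iff.mp h
    exact Finset.prod_eq_zero (Finset.mem_univ y) (by simp [hy])

theorem prodOp_conjTranspose (B : V → Matrix d d ℂ) :
    (prodOp B)ᴴ = prodOp (fun y => (B y)ᴴ) := by
  ext σ τ
  simp [prodOp, Matrix.conjTranspose_apply]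

/-- One-site operator on a general finite set of sites. -/
def siteOpV (x : V) (A : Matrix d d ℂ) : Matrix (V → d) (V → d) ℂ :=
  prodOp fun y => if y = x then A else 1

theorem siteOpV_apply (x : V) (A : Matrix d d ℂ) (σ τ : V → d) :
    siteOpV x A σ τ = A (σ x) (τ x) * ∏ y ∈ Finset.univ.erase x, (1 : Matrix d d ℂ) (σ y) (τ y) := by
  simp only [siteOpV, prodOp, Matrix.of_apply]
  rw [← Finset.mul_prod_erase _ _ (Finset.mem_univ x)]
  congr 1
  · simp
  · refine Finset.prod_congr rfl fun y hy => ?_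
    rw [if_neg (Finset.ne_of_mem_erase hy)]

theorem siteOpV_mul (x : V) (A B : Matrix d d ℂ) :
    siteOpV x A * siteOpV x B = siteOpV x (A * B) := by
  simp only [siteOpV, prodOp_mul]
  congr 1
  ext1 y
  split_ifs <;> simp

theorem siteOpV_one (x : V) : siteOpV x (1 : Matrix d d ℂ) = 1 := by
  simp only [siteOpV, ite_self]
  exact prodOp_one

theorem siteOpV_add (x : V) (A B : Matrix d d ℂ) :
    siteOpV x (A + B) = siteOpV x A + siteOpV x B := by
  ext σ τ
  simp only [siteOpV_apply, Matrix.add_apply]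
  ring

theorem siteOpV_smul (x : V) (c : ℂ) (A : Matrix d d ℂ) :
    siteOpV x (c • A) = c • siteOpV x A := by
  ext σ τ
  simp only [siteOpV_apply, Matrix.smul_apply, smul_eq_mul]
  ring

theorem siteOpV_zero (x : V) : siteOpV x (0 : Matrix d d ℂ) = 0 := by
  ext σ τ
  simp [siteOpV_apply]

theorem siteOpV_neg (x : V) (A : Matrix d d ℂ) : siteOpV x (-A) = -siteOpV x A := by
  ext σ τ
  simp [siteOpV_apply]

theorem siteOpV_sub (x : V) (A B : Matrix d d ℂ) :
    siteOpV x (A - B) = siteOpV x A - siteOpV x B := by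
  rw [sub_eq_add_neg, siteOpV_add, siteOpV_neg, sub_eq_add_neg]

theorem siteOpV_sum (x : V) {κ : Type*} (s : Finset κ) (A : κ → Matrix d d ℂ) :
    siteOpV x (∑ k ∈ s, A k) = ∑ k ∈ s, siteOpV x (A k) := by
  classical
  induction s using Finset.induction_on with
  | empty => simp [siteOpV_zero]
  | insert a s ha ih => rw [Finset.sum_insert ha, Finset.sum_insert ha, siteOpV_add, ih]

theorem siteOpV_conjTranspose (x : V) (A : Matrix d d ℂ) :
    (siteOpV x A)ᴴ = siteOpV x Aᴴ := by
  simp only [siteOpV, prodOp_conjTranspose]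
  congr 1
  ext1 y
  split_ifs <;> simp

theorem siteOpV_commute {x y : V} (hxy : x ≠ y) (A B : Matrix d d ℂ) :
    siteOpV x A * siteOpV y B = siteOpV y B * siteOpV x A := by
  simp only [siteOpV, prodOp_mul]
  congr 1
  ext1 z
  by_cases h1 : z = x
  · subst h1; simp [hxy]
  · simp [h1]

theorem siteOpV_isHermitian (x : V) {A : Matrix d d ℂ} (hA : A.IsHermitian) :
    (siteOpV x A).IsHermitian := by
  rw [Matrix.IsHermitian, siteOpV_conjTranspose, hA]

theorem siteOpV_posSemidef (x : V) {A : Matrix d d ℂ} (hA : A.PosSemidef) :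
    (siteOpV x A).PosSemidef := by
  obtain ⟨B, rfl⟩ := exists_factor hA
  rw [← siteOpV_mul, ← siteOpV_conjTranspose]
  exact Matrix.posSemidef_conjTranspose_mul_self _

end General

section Concrete

variable {n : ℕ} {Λ : Finset Site}

theorem siteOp_eq_siteOpV (x : Λ) (A : Matrix (Fin (n + 1)) (Fin (n + 1)) ℂ) :
    siteOp x A = siteOpV x A := rfl

theorem siteOp_mul (x : Λ) (A B : Matrix (Fin (n + 1)) (Fin (n + 1)) ℂ) :
    siteOp x A * siteOp x B = siteOp x (A * B) := siteOpV_mul x A B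

theorem siteOp_one (x : Λ) : siteOp x (1 : Matrix (Fin (n + 1)) (Fin (n + 1)) ℂ) = 1 :=
  siteOpV_one x

theorem siteOp_add (x : Λ) (A B : Matrix (Fin (n + 1)) (Fin (n + 1)) ℂ) :
    siteOp x (A + B) = siteOp x A + siteOp x B := siteOpV_add x A B

theorem siteOp_sub (x : Λ) (A B : Matrix (Fin (n + 1)) (Fin (n + 1)) ℂ) :
    siteOp x (A - B) = siteOp x A - siteOp x B := siteOpV_sub x A B

theorem siteOp_neg (x : Λ) (A : Matrix (Fin (n + 1)) (Fin (n + 1)) ℂ) :
    siteOp x (-A) = -siteOp x A := siteOpV_neg x A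

theorem siteOp_zero (x : Λ) : siteOp x (0 : Matrix (Fin (n + 1)) (Fin (n + 1)) ℂ) = 0 :=
  siteOpV_zero x

theorem siteOp_smul (x : Λ) (c : ℂ) (A : Matrix (Fin (n + 1)) (Fin (n + 1)) ℂ) :
    siteOp x (c • A) = c • siteOp x A := siteOpV_smul x c A

theorem siteOp_conjTranspose (x : Λ) (A : Matrix (Fin (n + 1)) (Fin (n + 1)) ℂ) :
    (siteOp x A)ᴴ = siteOp x Aᴴ := siteOpV_conjTranspose x A

theorem siteOp_commute {x y : Λ} (hxy : x ≠ y) (A B : Matrix (Fin (n + 1)) (Fin (n + 1)) ℂ) :
    siteOp x A * siteOp y B = siteOp y B * siteOp x A := siteOpV_commute hxy A B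

theorem siteOp_isHermitian (x : Λ) {A : Matrix (Fin (n + 1)) (Fin (n + 1)) ℂ}
    (hA : A.IsHermitian) : (siteOp x A).IsHermitian := siteOpV_isHermitian x hA

theorem siteOp_posSemidef (x : Λ) {A : Matrix (Fin (n + 1)) (Fin (n + 1)) ℂ}
    (hA : A.PosSemidef) : (siteOp x A).PosSemidef := siteOpV_posSemidef x hA

end Concrete

end Vale.Agent.P361
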