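import Vale.Agent.P361.ManyBody
import Vale.Agent.P361.BoxLimit

/-!
Existence of the thermodynamic limit of the pressure.
-/

namespace Vale.Agent.P361

open Matrix Filter Topology Finset
open scoped ComplexOrder Kronecker

theorem spin_isHermitian (n : ℕ) (a : Fin 3) : (spin n a).IsHermitian := by
  fin_cases a
  · simp only [spin, Matrix.IsHermitian]
    simp [Matrix.conjTranspose_smul, Matrix.conjTranspose_add, add_comm]
  · simp only [spin, Matrix.IsHermitian]
    simp only [Fin.mk_one, Fin.isValue, Matrix.cons_val_one, Matrix.cons_val_zero]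
    rw [Matrix.conjTranspose_smul, Matrix.conjTranspose_sub, Matrix.conjTranspose_conjTranspose]
    have : star (1 / (2 * Complex.I) : ℂ) = -(1 / (2 * Complex.I)) := by
      simp
    rw [this, neg_smul, ← smul_neg, neg_sub]
  · simp only [spin, spinZ, Matrix.IsHermitian]
    simp only [Fin.reduceFinMk, Matrix.cons_val]
    rw [Matrix.diagonal_conjTranspose]
    congr 1
    ext1 j
    simp

theorem isNN_irrefl (x : Site) : ¬ IsNN x x := by
  simp [IsNN]

theorem isNN_mem_Icc {x y : Site} (h : IsNN x y) : y ∈ Finset.Icc (x - 1) (x + 1) := by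
  rw [Finset.mem_Icc, Pi.le_def, Pi.le_def]
  have key : ∀ i, |x i - y i| ≤ 1 := by
    intro i
    have h1 : |x i - y i| ≤ ∑ j, |x j - y j| :=
      Finset.single_le_sum (f := fun j => |x j - y j|) (fun _ _ => abs_nonneg _)
        (Finset.mem_univ i)
    exact h1.trans_eq h
  refine ⟨fun i => ?_, fun i => ?_⟩
  · have := abs_le.1 (key i)
    simp only [Pi.sub_apply, Pi.one_apply]
    linarith
  · have := abs_le.1 (key i)
    simp only [Pi.add_apply, Pi.one_apply]
    linarith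

theorem degree_bound (Λ : Finset Site) (x : Λ) :
    (Finset.univ.filter fun y : Λ => IsNN x.1 y.1).card ≤ 27 := by
  have h1 : (Finset.univ.filter fun y : Λ => IsNN x.1 y.1).card ≤
      (Finset.Icc (x.1 - 1) (x.1 + 1)).card := by
    refine Finset.card_le_card_of_injOn (fun y => y.1) ?_ (Subtype.val_injective.injOn)
    intro y hy
    simp only [Finset.coe_filter, Finset.mem_univ, true_and, Set.mem_ofPred_eq] at hy
    exact Finset.mem_coe.2 (isNN_mem_Icc hy)
  refine h1.trans ?_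
  rw [Pi.card_Icc]
  simp only [Int.card_Icc, Pi.add_apply, Pi.sub_apply, Pi.one_apply]
  have : ∀ i : Fin 3, (x.1 i + 1 + 1 - (x.1 i - 1)).toNat = 3 := by
    intro i
    have : x.1 i + 1 + 1 - (x.1 i - 1) = 3 := by ring
    rw [this]; rfl
  simp [this]

/-- Number of ordered nearest-neighbour pairs. -/
noncomputable def edgeCount (Λ : Finset Site) : ℝ :=
  ∑ x : Λ, ∑ y : Λ, if IsNN x.1 y.1 then (1 : ℝ) else 0

theorem edgeCount_eq (Λ : Finset Site) :
    edgeCount Λ = ∑ x ∈ Λ, ∑ y ∈ Λ, if IsNN x y then (1 : ℝ) else 0 := by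
  unfold edgeCount
  rw [Finset.sum_coe_sort Λ (fun x => ∑ y : Λ, if IsNN x y.1 then (1 : ℝ) else 0)]
  refine Finset.sum_congr rfl fun x _ => ?_
  rw [Finset.sum_coe_sort Λ (fun y => if IsNN x y then (1 : ℝ) else 0)]

theorem edgeCount_superadd (Λ₁ Λ₂ : Finset Site) (h : Disjoint Λ₁ Λ₂) :
    edgeCount Λ₁ + edgeCount Λ₂ ≤ edgeCount (Λ₁ ∪ Λ₂) := by
  simp only [edgeCount_eq]
  rw [Finset.sum_union h]
  refine add_le_add ?_ ?_
  · refine Finset.sum_le_sum fun x _ => ?_
    exact Finset.sum_le_sum_of_subset_of_nonneg Finset.subset_union_left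
      (fun _ _ _ => by split_ifs <;> norm_num)
  · refine Finset.sum_le_sum fun x _ => ?_
    exact Finset.sum_le_sum_of_subset_of_nonneg Finset.subset_union_right
      (fun _ _ _ => by split_ifs <;> norm_num)

theorem isNN_add (x y v : Site) : IsNN (x + v) (y + v) ↔ IsNN x y := by
  simp [IsNN]

theorem edgeCount_translate (v : Site) (Λ : Finset Site) :
    edgeCount (Λ.map (addRightEmbedding v)) = edgeCount Λ := by
  simp only [edgeCount_eq, Finset.sum_map, addRightEmbedding_apply, isNN_add]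

theorem edgeCount_nonneg (Λ : Finset Site) : 0 ≤ edgeCount Λ := by
  unfold edgeCount
  exact Finset.sum_nonneg fun _ _ => Finset.sum_nonneg fun _ _ => by split_ifs <;> norm_num

theorem edgeCount_le (Λ : Finset Site) : edgeCount Λ ≤ 27 * Λ.card := by
  unfold edgeCount
  calc ∑ x : Λ, ∑ y : Λ, (if IsNN x.1 y.1 then (1 : ℝ) else 0) ≤ ∑ _x : Λ, (27 : ℝ) := by
        refine Finset.sum_le_sum fun x _ => ?_
        rw [Finset.sum_ite, Finset.sum_const_zero, add_zero, Finset.sum_const, nsmul_eq_mul,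
          mul_one]
        exact_mod_cast degree_bound Λ x
    _ = 27 * Λ.card := by
        rw [Finset.sum_const, Finset.card_univ, Fintype.card_coe, nsmul_eq_mul]
        ring

section

variable {b c φ : ℝ} (hb : 0 ≤ b) {n : ℕ}
  (hc : ((c : ℂ) • (1 : Matrix (Fin (n + 1)) (Fin (n + 1)) ℂ) -
    ∑ a, spin n a * spin n a).PosSemidef) (hc0 : 0 ≤ c)
  {F : Matrix (Fin (n + 1)) (Fin (n + 1)) ℂ} (hF : F.PosSemidef)
  (hφ : ((φ : ℂ) • (1 : Matrix (Fin (n + 1)) (Fin (n + 1)) ℂ) - F).PosSemidef)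

/-- Log partition function of a finite subset of the lattice. -/
noncomputable def lz (b c : ℝ) (n : ℕ) (F : Matrix (Fin (n + 1)) (Fin (n + 1)) ℂ)
    (Λ : Finset Site) : ℝ :=
  logZ (V := Λ) b c (spin n) F (fun x y => IsNN x.1 y.1)

theorem lz_translate (v : Site) (Λ : Finset Site) :
    lz b c n F (Λ.map (addRightEmbedding v)) = lz b c n F Λ := by
  unfold lz
  let g : Λ ≃ (Λ.map (addRightEmbedding v) : Finset Site) :=
    Equiv.ofBijective (fun x => ⟨x.1 + v, Finset.mem_map.2 ⟨x.1, x.2, rfl⟩⟩)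
      ⟨fun x y h => by
        have := congrArg Subtype.val h
        exact Subtype.ext (add_right_cancel this), fun y => by
        obtain ⟨x, hx, hy⟩ := Finset.mem_map.1 y.2
        exact ⟨⟨x, hx⟩, Subtype.ext hy⟩⟩
  have h := logZ_relabel g b c (spin n) F
    (fun x y : (Λ.map (addRightEmbedding v) : Finset Site) => IsNN x.1 y.1)
  rw [← h]
  have h2 : ∀ x y : Λ, IsNN (g x).1 (g y).1 ↔ IsNN x.1 y.1 := fun x y => isNN_add _ _ _
  unfold logZ totOp
  simp only [h2]

include hb hc hF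

theorem lz_superadd (Λ₁ Λ₂ : Finset Site) (h : Disjoint Λ₁ Λ₂) :
    lz b c n F Λ₁ + lz b c n F Λ₂ ≤ lz b c n F (Λ₁ ∪ Λ₂) := by
  unfold lz
  have := logZ_superadd hb (spin_isHermitian n) hc hF
    (fun x y : (Λ₁ ∪ Λ₂ : Finset Site) => IsNN x.1 y.1) (fun x => isNN_irrefl x.1)
    (Equiv.Finset.union Λ₁ Λ₂ h)
  exact this

theorem lz_nonneg (Λ : Finset Site) : 0 ≤ lz b c n F Λ :=
  logZ_nonneg hb (spin_isHermitian n) hc hF _ (fun x => isNN_irrefl x.1)

include hc0 hφ in
theorem lz_le (Λ : Finset Site) :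
    lz b c n F Λ ≤ (Real.log (Fintype.card (Fin (n + 1))) + 2 * b * c * 27 + φ) * Λ.card := by
  have := logZ_upper (V := Λ) hb (spin_isHermitian n) hc hc0 hF.1 hφ
    (fun x y => IsNN x.1 y.1) (fun x => isNN_irrefl x.1) 27
    (fun x => by exact_mod_cast degree_bound Λ x)
  rwa [Fintype.card_coe] at this

end

/-- The exponent `-β (H - h M)`. -/
noncomputable def expo (n : ℕ) (Λ : Finset Site) (β h : ℝ) :
    Matrix (Λ → Fin (n + 1)) (Λ → Fin (n + 1)) ℂ :=
  -(β : ℂ) • (hamiltonian n Λ - (h : ℂ) • magnetization n Λ)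

theorem totOp_eq (n : ℕ) (Λ : Finset Site) (β h c φ₀ : ℝ) :
    totOp (V := Λ) (β / 2) c (spin n)
      ((φ₀ : ℂ) • (1 : Matrix (Fin (n + 1)) (Fin (n + 1)) ℂ) + ((β * h : ℝ) : ℂ) • spin n 2)
      (fun x y => IsNN x.1 y.1) =
      expo n Λ β h + (((β / 2) * c * edgeCount Λ + φ₀ * Λ.card : ℝ) : ℂ) •
        (1 : Matrix (Λ → Fin (n + 1)) (Λ → Fin (n + 1)) ℂ) := by
  unfold totOp expo hamiltonian magnetization edgeCount pairOp
  simp only [siteOp_eq_siteOpV, siteOpV_add, siteOpV_smul, siteOpV_one]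
  have e1 : (∑ x : Λ, ∑ y : Λ, if IsNN x.1 y.1 then
      ((c : ℂ) • (1 : Matrix (Λ → Fin (n + 1)) (Λ → Fin (n + 1)) ℂ) +
        ∑ a, siteOpV x (spin n a) * siteOpV y (spin n a)) else 0) =
      ((c * ∑ x : Λ, ∑ y : Λ, (if IsNN x.1 y.1 then (1 : ℝ) else 0) : ℝ) : ℂ) •
        (1 : Matrix (Λ → Fin (n + 1)) (Λ → Fin (n + 1)) ℂ) +
      ∑ x : Λ, ∑ y : Λ, if IsNN x.1 y.1 then
        ∑ a, siteOpV x (spin n a) * siteOpV y (spin n a) else 0 := by
    push_cast
    rw [Finset.mul_sum, Finset.sum_smul, ← Finset.sum_add_distrib]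
    refine Finset.sum_congr rfl fun x _ => ?_
    rw [Finset.mul_sum, Finset.sum_smul, ← Finset.sum_add_distrib]
    refine Finset.sum_congr rfl fun y _ => ?_
    split_ifs <;> simp
  rw [e1, Finset.sum_add_distrib, Finset.sum_const, Finset.card_univ, Fintype.card_coe,
    ← Finset.smul_sum]
  push_cast
  module

theorem expo_isHermitian (n : ℕ) (Λ : Finset Site) (β h : ℝ) : (expo n Λ β h).IsHermitian := by
  have h1 := totOp_eq n Λ β h 0 0
  have h2 := totOp_isHermitian (V := Λ) (β / 2) 0 (spin_isHermitian n)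
    (F := ((0 : ℝ) : ℂ) • (1 : Matrix (Fin (n + 1)) (Fin (n + 1)) ℂ) +
      ((β * h : ℝ) : ℂ) • spin n 2) ?_ (fun x y => IsNN x.1 y.1) (fun x => isNN_irrefl x.1)
  · rw [h1] at h2
    simpa using h2
  · have h3 := spin_isHermitian n 2
    rw [Matrix.IsHermitian, Matrix.conjTranspose_add, Matrix.conjTranspose_smul,
      Matrix.conjTranspose_smul, h3]
    simp

theorem finPressure_eq (n : ℕ) (Λ : Finset Site) (β h c φ₀ : ℝ) :
    finPressure n Λ β h = (β * Λ.card)⁻¹ * (lz (β / 2) c n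
      ((φ₀ : ℂ) • (1 : Matrix (Fin (n + 1)) (Fin (n + 1)) ℂ) + ((β * h : ℝ) : ℂ) • spin n 2) Λ -
        ((β / 2) * c * edgeCount Λ + φ₀ * Λ.card)) := by
  unfold finPressure lz logZ
  rw [totOp_eq, trace_exp_add_smul_one, Real.log_mul (Real.exp_pos _).ne'
    (trace_exp_pos (expo_isHermitian n Λ β h)).ne', Real.log_exp]
  congr 1
  unfold expo
  ring

/-- Existence of the thermodynamic limit of the pressure. -/
theorem finPressure_tendsto (n : ℕ) {β : ℝ} (hβ : 0 < β) (h : ℝ) :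
    ∃ p : ℝ, Tendsto (fun N => finPressure n (box N) β h) atTop (𝓝 p) := by
  -- constants
  obtain ⟨c, hc0, hc⟩ := exists_upper_bound (X := ∑ a, spin n a * spin n a) (by
    rw [Matrix.IsHermitian, Matrix.conjTranspose_sum]
    refine Finset.sum_congr rfl fun a _ => ?_
    rw [Matrix.conjTranspose_mul, spin_isHermitian n a])
  have hherm : ∀ r : ℝ, ((r : ℂ) • spin n 2).IsHermitian := by
    intro r
    rw [Matrix.IsHermitian, Matrix.conjTranspose_smul, spin_isHermitian n 2]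
    simp
  obtain ⟨φ₀, _, hφ₀⟩ := exists_upper_bound (hherm (-(β * h)))
  set F : Matrix (Fin (n + 1)) (Fin (n + 1)) ℂ :=
    (φ₀ : ℂ) • (1 : Matrix (Fin (n + 1)) (Fin (n + 1)) ℂ) + ((β * h : ℝ) : ℂ) • spin n 2 with hFdef
  have hF : F.PosSemidef := by
    have : F = (φ₀ : ℂ) • (1 : Matrix (Fin (n + 1)) (Fin (n + 1)) ℂ) -
        ((-(β * h) : ℝ) : ℂ) • spin n 2 := by
      rw [hFdef, Complex.ofReal_neg, neg_smul, sub_neg_eq_add]
    rw [this]
    exact hφ₀
  obtain ⟨φ, _, hφ⟩ := exists_upper_bound hF.1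
  have hb : 0 ≤ β / 2 := by positivity
  obtain ⟨p₁, hp₁⟩ := tendsto_box (G := lz (β / 2) c n F)
    (lz_superadd hb hc hF) lz_translate (lz_nonneg hb hc hF) (lz_le hb hc hc0 hF hφ)
  obtain ⟨p₂, hp₂⟩ := tendsto_box (G := edgeCount)
    edgeCount_superadd edgeCount_translate edgeCount_nonneg edgeCount_le
  refine ⟨β⁻¹ * (p₁ - (β / 2 * c * p₂ + φ₀)), ?_⟩
  have hlim := ((hp₁.sub ((hp₂.const_mul (β / 2 * c)).add_const φ₀)).const_mul β⁻¹)
  refine hlim.congr fun N => ?_
  rw [finPressure_eq n (box N) β h c φ₀, ← hFdef]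
  have hcard : ((box N).card : ℝ) ≠ 0 := by
    rw [card_box]; positivity
  field_simp

/-- The pressure is the limit of the finite-volume pressures. -/
theorem pressure_tendsto (n : ℕ) {β : ℝ} (hβ : 0 < β) (h : ℝ) :
    Tendsto (fun N => finPressure n (box N) β h) atTop (𝓝 (pressure n β h)) :=
  tendsto_nhds_limUnder (finPressure_tendsto n hβ h)

end Vale.Agent.P361
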