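import Vale.Agent.P361.Roep
import Vale.Agent.P361.Thermo

/-!
Spin algebra: commutation relations and the bond inequality.
-/

namespace Vale.Agent.P361

open Matrix Finset
open scoped ComplexOrder

/-- Raising matrix `S⁺ = (S⁻)ᴴ`. -/
noncomputable def spinRaise (n : ℕ) : Matrix (Fin (n + 1)) (Fin (n + 1)) ℂ := (spinLower n)ᴴ

/-- Diagonal Holstein–Primakoff factor. -/
noncomputable def hpA (n : ℕ) : Matrix (Fin (n + 1)) (Fin (n + 1)) ℂ :=
  diagonal fun j => ((Real.sqrt ((n : ℝ) - (j : ℕ)) : ℝ) : ℂ)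

/-- Truncated boson annihilation matrix. -/
noncomputable def hpB (n : ℕ) : Matrix (Fin (n + 1)) (Fin (n + 1)) ℂ :=
  Matrix.of fun i j => if (i : ℕ) + 1 = (j : ℕ) then ((Real.sqrt ((j : ℕ) : ℝ) : ℝ) : ℂ) else 0

theorem hpA_mul_self (n : ℕ) :
    (hpA n)ᴴ * hpA n = ((n : ℂ) / 2) • (1 : Matrix (Fin (n + 1)) (Fin (n + 1)) ℂ) + spinZ n := by
  ext i j
  by_cases hij : i = j
  · subst hij
    have hi : ((i : ℕ) : ℝ) ≤ n := by exact_mod_cast Nat.lt_succ_iff.1 i.2
    simp only [hpA, spinZ, Matrix.diagonal_conjTranspose, Matrix.diagonal_mul_diagonal,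
      Matrix.diagonal_apply_eq, Matrix.add_apply, Matrix.smul_apply, Matrix.one_apply_eq,
      smul_eq_mul, mul_one, Pi.star_apply, Complex.star_def, Complex.conj_ofReal]
    rw [← Complex.ofReal_mul, Real.mul_self_sqrt (by linarith)]
    push_cast
    ring
  · simp [hpA, spinZ, hij, Matrix.diagonal_conjTranspose, Matrix.diagonal_mul_diagonal]

theorem hpB_mul_self (n : ℕ) :
    (hpB n)ᴴ * hpB n = ((n : ℂ) / 2) • (1 : Matrix (Fin (n + 1)) (Fin (n + 1)) ℂ) - spinZ n := by
  ext i j
  rw [Matrix.mul_apply]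
  simp only [hpB, Matrix.conjTranspose_apply, Matrix.of_apply]
  by_cases hij : i = j
  · subst hij
    simp only [spinZ, Matrix.sub_apply, Matrix.smul_apply, Matrix.one_apply_eq,
      Matrix.diagonal_apply_eq, smul_eq_mul, mul_one]
    by_cases hi0 : (i : ℕ) = 0
    · rw [Finset.sum_eq_zero]
      · simp [hi0]
      · intro k _
        rw [if_neg (by omega)]
        simp
    · have hlt : (i : ℕ) - 1 < n + 1 := by omega
      rw [Finset.sum_eq_single (⟨(i : ℕ) - 1, hlt⟩ : Fin (n + 1))]
      · have : (i : ℕ) - 1 + 1 = (i : ℕ) := by omega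
        simp only [this, if_true, Complex.star_def, Complex.conj_ofReal]
        rw [← Complex.ofReal_mul, Real.mul_self_sqrt (Nat.cast_nonneg _)]
        push_cast
        ring
      · intro k _ hk
        rw [if_neg]
        · simp
        · intro h
          apply hk
          ext
          simp only
          omega
      · intro h; exact absurd (Finset.mem_univ _) h
  · have hij' : (i : ℕ) ≠ (j : ℕ) := fun h => hij (Fin.ext h)
    rw [Finset.sum_eq_zero]
    · simp [spinZ, hij]
    · intro k _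
      by_cases h1 : (k : ℕ) + 1 = (i : ℕ)
      · rw [if_neg (show ¬ (k : ℕ) + 1 = (j : ℕ) by omega)]
        simp
      · rw [if_neg h1]
        simp

theorem hpA_mul_hpB (n : ℕ) : (hpA n) * hpB n = spinRaise n := by
  ext i j
  simp only [hpA, hpB, spinRaise, spinLower, Matrix.diagonal_mul, Matrix.of_apply,
    Matrix.conjTranspose_apply]
  by_cases h : (i : ℕ) + 1 = (j : ℕ)
  · rw [if_pos h, if_pos h.symm]
    rw [Complex.star_def, Complex.conj_ofReal, ← Complex.ofReal_mul]
    congr 1
    have hi : ((i : ℕ) : ℝ) ≤ n := by exact_mod_cast Nat.lt_succ_iff.1 i.2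
    rw [← Real.sqrt_mul (by linarith)]
    congr 1
    rw [← h]
    push_cast
    ring
  · rw [if_neg h, if_neg (fun h' => h h'.symm)]
    simp

theorem hpA_isHermitian (n : ℕ) : (hpA n)ᴴ = hpA n := by
  simp only [hpA, Matrix.diagonal_conjTranspose]
  congr 1
  ext j
  simp

theorem hpB_mul_hpA (n : ℕ) : (hpB n)ᴴ * hpA n = spinLower n := by
  have h := congrArg Matrix.conjTranspose (hpA_mul_hpB n)
  rw [Matrix.conjTranspose_mul, hpA_isHermitian, spinRaise, Matrix.conjTranspose_conjTranspose] at h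
  exact h

theorem lower_mul_raise (n : ℕ) :
    spinLower n * spinRaise n = diagonal fun j : Fin (n + 1) =>
      (((j : ℕ) : ℂ) * ((n : ℂ) + 1 - (j : ℕ))) := by
  ext i j
  rw [Matrix.mul_apply]
  simp only [spinRaise, spinLower, Matrix.conjTranspose_apply, Matrix.of_apply]
  by_cases hij : i = j
  · subst hij
    simp only [Matrix.diagonal_apply_eq]
    by_cases hi0 : (i : ℕ) = 0
    · rw [Finset.sum_eq_zero]
      · simp [hi0]
      · intro k _
        rw [if_neg (by omega)]
        simp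
    · have hlt : (i : ℕ) - 1 < n + 1 := by omega
      rw [Finset.sum_eq_single (⟨(i : ℕ) - 1, hlt⟩ : Fin (n + 1))]
      · have : (i : ℕ) = (i : ℕ) - 1 + 1 := by omega
        rw [if_pos this]
        rw [Complex.star_def, Complex.conj_ofReal, ← Complex.ofReal_mul, Real.mul_self_sqrt]
        · push_cast; ring
        · have hi : ((i : ℕ) : ℝ) ≤ n := by exact_mod_cast Nat.lt_succ_iff.1 i.2
          have : (0 : ℝ) ≤ ((i : ℕ) : ℝ) := Nat.cast_nonneg _
          exact mul_nonneg this (by linarith)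
      · intro k _ hk
        rw [if_neg]
        · simp
        · intro h
          apply hk
          ext
          simp only
          omega
      · intro h; exact absurd (Finset.mem_univ _) h
  · have hij' : (i : ℕ) ≠ (j : ℕ) := fun h => hij (Fin.ext h)
    rw [Finset.sum_eq_zero]
    · simp [hij]
    · intro k _
      by_cases h1 : (i : ℕ) = (k : ℕ) + 1
      · rw [if_neg (show ¬ (j : ℕ) = (k : ℕ) + 1 by omega)]
        simp
      · rw [if_neg h1]
        simp

theorem raise_mul_lower (n : ℕ) :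
    spinRaise n * spinLower n = diagonal fun j : Fin (n + 1) =>
      ((((j : ℕ) : ℂ) + 1) * ((n : ℂ) - (j : ℕ))) := by
  ext i j
  rw [Matrix.mul_apply]
  simp only [spinRaise, spinLower, Matrix.conjTranspose_apply, Matrix.of_apply]
  by_cases hij : i = j
  · subst hij
    simp only [Matrix.diagonal_apply_eq]
    by_cases hi0 : (i : ℕ) = n
    · rw [Finset.sum_eq_zero]
      · simp [hi0]
      · intro k _
        have := k.2
        rw [if_neg (by omega)]
        simp
    · have hlt : (i : ℕ) + 1 < n + 1 := by have := i.2; omega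
      rw [Finset.sum_eq_single (⟨(i : ℕ) + 1, hlt⟩ : Fin (n + 1))]
      · rw [if_pos rfl]
        rw [Complex.star_def, Complex.conj_ofReal, ← Complex.ofReal_mul, Real.mul_self_sqrt]
        · push_cast; ring
        · have hi : ((i : ℕ) : ℝ) ≤ n := by exact_mod_cast Nat.lt_succ_iff.1 i.2
          have : (0 : ℝ) ≤ ((i : ℕ) : ℝ) := Nat.cast_nonneg _
          push_cast
          exact mul_nonneg (by linarith) (by linarith)
      · intro k _ hk
        rw [if_neg]
        · simp
        · intro h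
          apply hk
          ext
          simp only
          omega
      · intro h; exact absurd (Finset.mem_univ _) h
  · have hij' : (i : ℕ) ≠ (j : ℕ) := fun h => hij (Fin.ext h)
    rw [Finset.sum_eq_zero]
    · simp [hij]
    · intro k _
      by_cases h1 : (k : ℕ) = (i : ℕ) + 1
      · rw [if_neg (show ¬ (k : ℕ) = (j : ℕ) + 1 by omega)]
        simp
      · rw [if_neg h1]
        simp

theorem raise_lower_comm (n : ℕ) :
    spinRaise n * spinLower n - spinLower n * spinRaise n = (2 : ℂ) • spinZ n := by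
  rw [raise_mul_lower, lower_mul_raise, Matrix.diagonal_sub, spinZ, ← Matrix.diagonal_smul]
  congr 1
  ext j
  simp only [Pi.smul_apply, smul_eq_mul]
  ring

theorem lower_Z_comm (n : ℕ) :
    spinLower n * spinZ n - spinZ n * spinLower n = spinLower n := by
  ext i j
  rw [Matrix.sub_apply, spinZ, Matrix.mul_diagonal, Matrix.diagonal_mul]
  simp only [spinLower, Matrix.of_apply]
  split_ifs with h
  · rw [h]; push_cast; ring
  · simp

theorem raise_Z_comm (n : ℕ) :
    spinRaise n * spinZ n - spinZ n * spinRaise n = -spinRaise n := by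
  have h := congrArg Matrix.conjTranspose (lower_Z_comm n)
  rw [Matrix.conjTranspose_sub, Matrix.conjTranspose_mul, Matrix.conjTranspose_mul] at h
  have hz : (spinZ n)ᴴ = spinZ n := spin_isHermitian n 2
  rw [hz] at h
  rw [← neg_sub, spinRaise]
  rw [h]

theorem lower_raise_le (n : ℕ) :
    ((n : ℂ) • (((n : ℂ) / 2) • (1 : Matrix (Fin (n + 1)) (Fin (n + 1)) ℂ) - spinZ n) -
      spinLower n * spinRaise n).PosSemidef := by
  have h : (n : ℂ) • (((n : ℂ) / 2) • (1 : Matrix (Fin (n + 1)) (Fin (n + 1)) ℂ) - spinZ n) -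
      spinLower n * spinRaise n = diagonal fun j : Fin (n + 1) =>
        ((((j : ℕ) : ℝ) * ((j : ℕ) - 1) : ℝ) : ℂ) := by
    rw [lower_mul_raise]
    ext i j
    by_cases hij : i = j
    · subst hij
      simp [spinZ]
      ring
    · simp [spinZ, hij]
  rw [h]
  refine Matrix.PosSemidef.diagonal ?_
  intro j
  simp only [Pi.zero_apply]
  rw [Complex.zero_le_real]
  rcases Nat.eq_zero_or_pos (j : ℕ) with h0 | h0
  · simp [h0]
  · have : (1 : ℝ) ≤ ((j : ℕ) : ℝ) := by exact_mod_cast h0
    exact mul_nonneg (by linarith) (by linarith)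

variable {n : ℕ} {Λ : Finset Site}

theorem pair_eq (x y : Λ) :
    ∑ a : Fin 3, siteOp x (spin n a) * siteOp y (spin n a) =
      siteOp x (spinZ n) * siteOp y (spinZ n) +
      (1 / 2 : ℂ) • (siteOp x (spinRaise n) * siteOp y (spinLower n) +
        siteOp x (spinLower n) * siteOp y (spinRaise n)) := by
  rw [Fin.sum_univ_three]
  have h0 : spin n 0 = (1 / 2 : ℂ) • (spinRaise n + spinLower n) := rfl
  have h1 : spin n 1 = (1 / (2 * Complex.I) : ℂ) • (spinRaise n - spinLower n) := rfl
  have h2 : spin n 2 = spinZ n := rfl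
  rw [h0, h1, h2]
  simp only [siteOp_smul, siteOp_add, siteOp_sub, Matrix.smul_mul, Matrix.mul_smul, smul_smul]
  have hI : (1 / (2 * Complex.I) : ℂ) * (1 / (2 * Complex.I)) = -(1 / 4) := by
    rw [div_mul_div_comm, one_mul]
    have : 2 * Complex.I * (2 * Complex.I) = -4 := by
      rw [mul_mul_mul_comm, Complex.I_mul_I]; norm_num
    rw [this]; norm_num
  rw [hI]
  simp only [Matrix.mul_add, Matrix.add_mul, Matrix.mul_sub, Matrix.sub_mul]
  module

/-- The bond inequality `2 Z_x Z_y + (R_x L_y + L_x R_y)/2 ≤ 2 S²`. -/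
theorem bond_posSemidef {x y : Λ} (hxy : x ≠ y) :
    ((2 * ((n : ℂ) / 2) ^ 2) • (1 : Matrix (Λ → Fin (n + 1)) (Λ → Fin (n + 1)) ℂ) -
      ((2 : ℂ) • (siteOp x (spinZ n) * siteOp y (spinZ n)) +
      (1 / 2 : ℂ) • (siteOp x (spinRaise n) * siteOp y (spinLower n) +
        siteOp x (spinLower n) * siteOp y (spinRaise n)))).PosSemidef := by
  set ax := siteOp x (hpA n) with hax
  set ay := siteOp y (hpA n) with hay
  set bx := siteOp x (hpB n) with hbx
  set yb := siteOp y (hpB n) with hyb
  have key : (2 * ((n : ℂ) / 2) ^ 2) • (1 : Matrix (Λ → Fin (n + 1)) (Λ → Fin (n + 1)) ℂ) -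
      ((2 : ℂ) • (siteOp x (spinZ n) * siteOp y (spinZ n)) +
      (1 / 2 : ℂ) • (siteOp x (spinRaise n) * siteOp y (spinLower n) +
        siteOp x (spinLower n) * siteOp y (spinRaise n))) =
      (1 / 2 : ℂ) • ((ax * yb - bx * ay)ᴴ * (ax * yb - bx * ay) + (ax * yb)ᴴ * (ax * yb) +
        (bx * ay)ᴴ * (bx * ay)) := by
    have hAA : ∀ z : Λ, siteOp z ((hpA n)ᴴ * hpA n) =
        ((n : ℂ) / 2) • (1 : Matrix (Λ → Fin (n + 1)) (Λ → Fin (n + 1)) ℂ) +
          siteOp z (spinZ n) := by
      intro z; rw [hpA_mul_self, siteOp_add, siteOp_smul, siteOp_one]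
    have hBB : ∀ z : Λ, siteOp z ((hpB n)ᴴ * hpB n) =
        ((n : ℂ) / 2) • (1 : Matrix (Λ → Fin (n + 1)) (Λ → Fin (n + 1)) ℂ) -
          siteOp z (spinZ n) := by
      intro z; rw [hpB_mul_self, siteOp_sub, siteOp_smul, siteOp_one]
    have e1 : (ax * yb)ᴴ * (ax * yb) = siteOp x ((hpA n)ᴴ * hpA n) *
        siteOp y ((hpB n)ᴴ * hpB n) := by
      rw [Matrix.conjTranspose_mul, hax, hyb, siteOp_conjTranspose, siteOp_conjTranspose,
        ← siteOp_mul, ← siteOp_mul]
      rw [Matrix.mul_assoc, ← Matrix.mul_assoc (siteOp x (hpA n)ᴴ), siteOp_mul,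
        ← Matrix.mul_assoc, ← siteOp_commute hxy, Matrix.mul_assoc, siteOp_mul]
    have e2 : (bx * ay)ᴴ * (bx * ay) = siteOp x ((hpB n)ᴴ * hpB n) *
        siteOp y ((hpA n)ᴴ * hpA n) := by
      rw [Matrix.conjTranspose_mul, hay, hbx, siteOp_conjTranspose, siteOp_conjTranspose,
        ← siteOp_mul, ← siteOp_mul]
      rw [Matrix.mul_assoc, ← Matrix.mul_assoc (siteOp x (hpB n)ᴴ), siteOp_mul,
        ← Matrix.mul_assoc, ← siteOp_commute hxy, Matrix.mul_assoc, siteOp_mul]
    have e3 : (ax * yb)ᴴ * (bx * ay) = siteOp x (spinRaise n) * siteOp y (spinLower n) := by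
      rw [← hpA_mul_hpB, ← hpB_mul_hpA, ← siteOp_mul, ← siteOp_mul, Matrix.conjTranspose_mul, hax,
        hyb, siteOp_conjTranspose, siteOp_conjTranspose, hpA_isHermitian, hbx, hay]
      rw [Matrix.mul_assoc, ← Matrix.mul_assoc (siteOp x (hpA n)), siteOp_mul,
        ← Matrix.mul_assoc, ← siteOp_commute hxy, Matrix.mul_assoc]
    have e4 : (bx * ay)ᴴ * (ax * yb) = siteOp x (spinLower n) * siteOp y (spinRaise n) := by
      rw [← hpA_mul_hpB, ← hpB_mul_hpA, ← siteOp_mul, ← siteOp_mul, Matrix.conjTranspose_mul, hay,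
        hbx, siteOp_conjTranspose, siteOp_conjTranspose, hpA_isHermitian, hax, hyb]
      rw [Matrix.mul_assoc, ← Matrix.mul_assoc (siteOp x (hpB n)ᴴ), siteOp_mul,
        ← Matrix.mul_assoc, ← siteOp_commute hxy, Matrix.mul_assoc]
    rw [Matrix.conjTranspose_sub, Matrix.sub_mul, Matrix.mul_sub, Matrix.mul_sub, e1, e2, e3, e4,
      hAA, hBB, hAA, hBB]
    simp only [Matrix.mul_add, Matrix.add_mul, Matrix.mul_sub, Matrix.sub_mul, Matrix.smul_mul,
      Matrix.mul_smul, Matrix.one_mul, Matrix.mul_one]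
    module
  rw [key]
  refine Matrix.PosSemidef.smul ?_ (by norm_num [Complex.le_def])
  exact ((Matrix.posSemidef_conjTranspose_mul_self _).add
    (Matrix.posSemidef_conjTranspose_mul_self _)).add (Matrix.posSemidef_conjTranspose_mul_self _)

end Vale.Agent.P361
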