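import Mathlib

/-!
Trace inequalities for exponentials of Hermitian matrices.
-/

namespace Vale.Agent.P361

open Matrix Finset
open scoped ComplexOrder

variable {ι : Type*} [Fintype ι] [DecidableEq ι]

theorem exp_eq_conj {X : Matrix ι ι ℂ} (hX : X.IsHermitian) :
    NormedSpace.exp X = (hX.eigenvectorUnitary : Matrix ι ι ℂ) *
      diagonal (fun i => ((Real.exp (hX.eigenvalues i) : ℝ) : ℂ)) *
      star (hX.eigenvectorUnitary : Matrix ι ι ℂ) := by
  have hU : star (hX.eigenvectorUnitary : Matrix ι ι ℂ) =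
      (hX.eigenvectorUnitary : Matrix ι ι ℂ)⁻¹ := by
    symm
    apply Matrix.inv_eq_left_inv
    exact Unitary.coe_star_mul_self _
  have hunit : IsUnit (hX.eigenvectorUnitary : Matrix ι ι ℂ) := by
    refine ⟨Unitary.toUnits hX.eigenvectorUnitary, rfl⟩
  have h1 := hX.spectral_theorem
  rw [Unitary.conjStarAlgAut_apply] at h1
  conv_lhs => rw [h1, hU]
  rw [Matrix.exp_conj _ _ hunit, Matrix.exp_diagonal, ← hU]
  congr 3
  ext i
  rw [Pi.exp_def]
  simp [Complex.exp_eq_exp_ℂ]

/-- Expansion of `tr (e^X B)` in the eigenbasis of `X`. -/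
theorem trace_exp_mul {X : Matrix ι ι ℂ} (hX : X.IsHermitian) (B : Matrix ι ι ℂ) :
    trace (NormedSpace.exp X * B) = ∑ i, ((Real.exp (hX.eigenvalues i) : ℝ) : ℂ) *
      (star (hX.eigenvectorUnitary : Matrix ι ι ℂ) * B *
        (hX.eigenvectorUnitary : Matrix ι ι ℂ)) i i := by
  rw [exp_eq_conj hX, Matrix.mul_assoc, Matrix.mul_assoc, Matrix.trace_mul_comm, Matrix.mul_assoc]
  simp only [Matrix.trace, Matrix.diag_apply, Matrix.diagonal_mul, Matrix.mul_assoc]

theorem trace_exp {X : Matrix ι ι ℂ} (hX : X.IsHermitian) :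
    trace (NormedSpace.exp X) = ((∑ i, Real.exp (hX.eigenvalues i) : ℝ) : ℂ) := by
  have := trace_exp_mul hX 1
  rw [Matrix.mul_one, Matrix.mul_one] at this
  rw [this]
  push_cast
  refine Finset.sum_congr rfl fun i _ => ?_
  rw [Unitary.coe_star_mul_self]
  simp

theorem trace_exp_re {X : Matrix ι ι ℂ} (hX : X.IsHermitian) :
    (trace (NormedSpace.exp X)).re = ∑ i, Real.exp (hX.eigenvalues i) := by
  rw [trace_exp hX, Complex.ofReal_re]

theorem trace_exp_pos [Nonempty ι] {X : Matrix ι ι ℂ} (hX : X.IsHermitian) :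
    0 < (trace (NormedSpace.exp X)).re := by
  rw [trace_exp_re hX]
  exact Finset.sum_pos (fun i _ => Real.exp_pos _) Finset.univ_nonempty

/-- Diagonal entries of `V* W V` in terms of eigenvalues of `W`. -/
theorem conj_diag_eq {W : Matrix ι ι ℂ} (hW : W.IsHermitian) (V : Matrix ι ι ℂ) (i : ι) :
    ((star V * W * V) i i).re = ∑ j, ‖(star V * (hW.eigenvectorUnitary : Matrix ι ι ℂ)) i j‖ ^ 2 *
      hW.eigenvalues j := by
  set U := (hW.eigenvectorUnitary : Matrix ι ι ℂ) with hU
  have h1 : W = U * diagonal (RCLike.ofReal ∘ hW.eigenvalues) * star U := by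
    have := hW.spectral_theorem
    rwa [Unitary.conjStarAlgAut_apply] at this
  have h2 : star V * W * V = (star V * U) * diagonal (RCLike.ofReal ∘ hW.eigenvalues) *
      star (star V * U) := by
    conv_lhs => rw [h1]
    simp only [star_mul, star_star, Matrix.mul_assoc]
  rw [h2, Matrix.mul_apply, Complex.re_sum]
  refine Finset.sum_congr rfl fun j _ => ?_
  rw [Matrix.mul_diagonal, Matrix.star_apply]
  have : (star V * U) i j * (RCLike.ofReal ∘ hW.eigenvalues) j * star ((star V * U) i j) =
     (((‖(star V * U) i j‖ ^ 2 * hW.eigenvalues j : ℝ)) : ℂ) := by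
    have h3 : (star V * U) i j * star ((star V * U) i j) = ((‖(star V * U) i j‖ ^ 2 : ℝ) : ℂ) := by
      rw [Complex.star_def, Complex.mul_conj, Complex.normSq_eq_norm_sq]
    calc _ = ((star V * U) i j * star ((star V * U) i j)) * (hW.eigenvalues j : ℂ) := by
          simp only [Function.comp]; ring_nf; simp; ring
      _ = _ := by rw [h3]; push_cast; ring
  rw [this, Complex.ofReal_re]

theorem row_sum_one {V : Matrix ι ι ℂ} (hV : V * star V = 1) (i : ι) :
    ∑ j, ‖V i j‖ ^ 2 = 1 := by
  have h := congrFun (congrFun hV i) i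
  rw [Matrix.mul_apply, Matrix.one_apply_eq] at h
  have h2 : ((∑ j, ‖V i j‖ ^ 2 : ℝ) : ℂ) = 1 := by
    rw [← h]
    push_cast
    refine Finset.sum_congr rfl fun j _ => ?_
    rw [Matrix.star_apply, Complex.star_def, Complex.mul_conj, Complex.normSq_eq_norm_sq]
    push_cast; rfl
  exact_mod_cast h2

/-- Peierls' inequality. -/
theorem peierls {W : Matrix ι ι ℂ} (hW : W.IsHermitian) {V : Matrix ι ι ℂ} (hV : star V * V = 1) :
    ∑ i, Real.exp (((star V * W * V) i i).re) ≤ (trace (NormedSpace.exp W)).re := by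
  have hV' : V * star V = 1 := mul_eq_one_comm.mp hV
  set U := (hW.eigenvectorUnitary : Matrix ι ι ℂ) with hU
  have hUU : U * star U = 1 := Unitary.coe_mul_star_self _
  have hUU' : star U * U = 1 := Unitary.coe_star_mul_self _
  set Q := star V * U with hQ
  have hQ1 : Q * star Q = 1 := by
    rw [hQ, star_mul, star_star, Matrix.mul_assoc, ← Matrix.mul_assoc U, hUU, Matrix.one_mul, hV]
  have hQ2 : star Q * Q = 1 := mul_eq_one_comm.mp hQ1
  have hcol : ∀ j, ∑ i, ‖Q i j‖ ^ 2 = 1 := by
    intro j
    have := row_sum_one (V := star Q) (by rw [star_star]; exact hQ2) j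
    simpa [Matrix.star_apply] using this
  rw [trace_exp_re hW]
  calc ∑ i, Real.exp (((star V * W * V) i i).re)
      = ∑ i, Real.exp (∑ j, ‖Q i j‖ ^ 2 * hW.eigenvalues j) := by
        refine Finset.sum_congr rfl fun i _ => ?_
        rw [conj_diag_eq hW V i]
    _ ≤ ∑ i, ∑ j, ‖Q i j‖ ^ 2 * Real.exp (hW.eigenvalues j) := by
        refine Finset.sum_le_sum fun i _ => ?_
        have := convexOn_exp.map_sum_le (t := Finset.univ) (w := fun j => ‖Q i j‖ ^ 2)
          (p := fun j => hW.eigenvalues j) (fun j _ => by positivity)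
          (row_sum_one hQ1 i) (fun j _ => Set.mem_univ _)
        simpa [smul_eq_mul] using this
    _ = ∑ j, Real.exp (hW.eigenvalues j) := by
        rw [Finset.sum_comm]
        refine Finset.sum_congr rfl fun j _ => ?_
        rw [← Finset.sum_mul, hcol j, one_mul]

/-- Peierls–Bogoliubov inequality (multiplicative form). -/
theorem peierls_bogoliubov_mul [Nonempty ι] {X Y : Matrix ι ι ℂ} (hX : X.IsHermitian)
    (hY : Y.IsHermitian) :
    (trace (NormedSpace.exp X)).re *
      Real.exp ((trace (NormedSpace.exp X * Y)).re / (trace (NormedSpace.exp X)).re) ≤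
      (trace (NormedSpace.exp (X + Y))).re := by
  set U := (hX.eigenvectorUnitary : Matrix ι ι ℂ) with hU
  have hUU : U * star U = 1 := Unitary.coe_mul_star_self _
  have hUU' : star U * U = 1 := Unitary.coe_star_mul_self _
  have hZ := trace_exp_pos hX
  have hP := peierls (hX.add hY) hUU'
  refine le_trans ?_ hP
  have hx : ∀ i, ((star U * X * U) i i).re = hX.eigenvalues i := by
    intro i
    have h1 : X = U * diagonal (RCLike.ofReal ∘ hX.eigenvalues) * star U := by
      have := hX.spectral_theorem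
      rwa [Unitary.conjStarAlgAut_apply] at this
    have h2 : star U * X * U = diagonal (RCLike.ofReal ∘ hX.eigenvalues) := by
      calc star U * X * U = star U * (U * diagonal (RCLike.ofReal ∘ hX.eigenvalues) * star U) * U := by
            rw [← h1]
        _ = (star U * U) * diagonal (RCLike.ofReal ∘ hX.eigenvalues) * (star U * U) := by
            simp only [Matrix.mul_assoc]
        _ = _ := by rw [hUU', Matrix.one_mul, Matrix.mul_one]
    rw [h2, Matrix.diagonal_apply_eq]
    simp
  have hsum : ∀ i, ((star U * (X + Y) * U) i i).re =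
      hX.eigenvalues i + ((star U * Y * U) i i).re := by
    intro i
    rw [Matrix.mul_add, Matrix.add_mul, Matrix.add_apply, Complex.add_re, hx i]
  simp_rw [hsum, Real.exp_add]
  rw [trace_exp_mul hX Y, trace_exp_re hX]
  rw [trace_exp_re hX] at hZ
  set Z := ∑ i, Real.exp (hX.eigenvalues i) with hZdef
  have hJ := convexOn_exp.map_sum_le (t := Finset.univ)
    (w := fun i => Real.exp (hX.eigenvalues i) / Z)
    (p := fun i => ((star U * Y * U) i i).re) (fun j _ => by positivity)
    (by rw [← Finset.sum_div]; exact div_self hZ.ne') (fun j _ => Set.mem_univ _)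
  simp only [smul_eq_mul] at hJ
  have h3 : (∑ i, ((Real.exp (hX.eigenvalues i) : ℝ) : ℂ) * (star U * Y * U) i i).re / Z =
      ∑ i, Real.exp (hX.eigenvalues i) / Z * ((star U * Y * U) i i).re := by
    rw [Complex.re_sum, Finset.sum_div]
    refine Finset.sum_congr rfl fun i _ => ?_
    rw [Complex.re_ofReal_mul]
    ring
  rw [h3]
  calc Z * Real.exp (∑ i, Real.exp (hX.eigenvalues i) / Z * ((star U * Y * U) i i).re)
      ≤ Z * ∑ i, Real.exp (hX.eigenvalues i) / Z * Real.exp ((star U * Y * U) i i).re := by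
        exact mul_le_mul_of_nonneg_left hJ hZ.le
    _ = _ := by
        rw [Finset.mul_sum]
        refine Finset.sum_congr rfl fun i _ => ?_
        field_simp

/-- Peierls–Bogoliubov inequality (logarithmic form). -/
theorem peierls_bogoliubov [Nonempty ι] {X Y : Matrix ι ι ℂ} (hX : X.IsHermitian)
    (hY : Y.IsHermitian) :
    Real.log (trace (NormedSpace.exp X)).re +
      (trace (NormedSpace.exp X * Y)).re / (trace (NormedSpace.exp X)).re ≤
      Real.log (trace (NormedSpace.exp (X + Y))).re := by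
  have h := peierls_bogoliubov_mul hX hY
  have hZ := trace_exp_pos hX
  have := Real.log_le_log (by positivity) h
  rwa [Real.log_mul hZ.ne' (Real.exp_pos _).ne', Real.log_exp] at this

/-- `tr (e^X Y) ≥ 0` when `Y` is positive semidefinite. -/
theorem trace_exp_mul_nonneg {X Y : Matrix ι ι ℂ} (hX : X.IsHermitian) (hY : Y.PosSemidef) :
    0 ≤ (trace (NormedSpace.exp X * Y)).re := by
  rw [trace_exp_mul hX Y, Complex.re_sum]
  refine Finset.sum_nonneg fun i _ => ?_
  rw [Complex.re_ofReal_mul]
  refine mul_nonneg (Real.exp_pos _).le ?_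
  have : (star (hX.eigenvectorUnitary : Matrix ι ι ℂ) * Y *
        (hX.eigenvectorUnitary : Matrix ι ι ℂ)).PosSemidef := by
    have := hY.conjTranspose_mul_mul_same (hX.eigenvectorUnitary : Matrix ι ι ℂ)
    simpa [Matrix.star_eq_conjTranspose] using this
  have h2 := this.diag_nonneg (i := i)
  exact (Complex.le_def.mp h2).1

/-- Monotonicity of `X ↦ tr e^X`. -/
theorem trace_exp_mono [Nonempty ι] {X Y : Matrix ι ι ℂ} (hX : X.IsHermitian)
    (hY : Y.IsHermitian) (hXY : (Y - X).PosSemidef) :
    (trace (NormedSpace.exp X)).re ≤ (trace (NormedSpace.exp Y)).re := by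
  have h := peierls_bogoliubov_mul hX (hY.sub hX)
  rw [add_sub_cancel] at h
  refine le_trans ?_ h
  have h0 := trace_exp_mul_nonneg hX hXY
  have hZ := trace_exp_pos hX
  have : 1 ≤ Real.exp ((trace (NormedSpace.exp X * (Y - X))).re / (trace (NormedSpace.exp X)).re) := by
    rw [Real.one_le_exp_iff]
    positivity
  nlinarith

end Vale.Agent.P361
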