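import Vale.Agent.P361.SiteAlg

/-!
Trace-exponential comparison for tensor products and relabelled indices.
-/

namespace Vale.Agent.P361

open Matrix Finset

set_option linter.unusedSectionVars false

open scoped ComplexOrder Kronecker

variable {α β γ : Type*} [Fintype α] [DecidableEq α] [Fintype β] [DecidableEq β]
  [Fintype γ] [DecidableEq γ]

theorem exp_submatrix_equiv (e : α ≃ β) (Y : Matrix β β ℂ) :
    NormedSpace.exp (Y.submatrix e e) = (NormedSpace.exp Y).submatrix e e := by
  have h1 : ∀ k : ℕ, (Y.submatrix e e) ^ k = (Y ^ k).submatrix e e := by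
    intro k
    induction k with
    | zero => simp
    | succ k ih => rw [pow_succ, pow_succ, ih, Matrix.submatrix_mul_equiv]
  have hcont : Continuous fun M : Matrix β β ℂ => M.submatrix e e :=
    Continuous.matrix_submatrix continuous_id e e
  have hs : HasSum (fun k : ℕ => ((k.factorial : ℚ)⁻¹) • Y ^ k) (NormedSpace.exp Y) := by
    open scoped Matrix.Norms.Operator in
    exact NormedSpace.exp_series_hasSum_exp' (𝕂 := ℚ) Y
  have hs2 : HasSum (fun k : ℕ => ((k.factorial : ℚ)⁻¹) • (Y.submatrix e e) ^ k)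
      (NormedSpace.exp (Y.submatrix e e)) := by
    open scoped Matrix.Norms.Operator in
    exact NormedSpace.exp_series_hasSum_exp' (𝕂 := ℚ) (Y.submatrix e e)
  have hs3 := hs.map (AddMonoidHom.mk' (fun M : Matrix β β ℂ => M.submatrix e e)
    (fun A B => by ext i j; rfl)) hcont
  refine hs2.unique ?_
  have h4 : ((AddMonoidHom.mk' (fun M : Matrix β β ℂ => M.submatrix e e)
      (fun A B => by ext i j; rfl)) ∘ fun k : ℕ => ((k.factorial : ℚ)⁻¹) • Y ^ k) =
      fun k : ℕ => ((k.factorial : ℚ)⁻¹) • (Y.submatrix e e) ^ k := by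
    ext1 k
    simp only [Function.comp, AddMonoidHom.mk'_apply, h1 k]
    rfl
  rw [h4] at hs3
  exact hs3

theorem diag_conj_eigen {X : Matrix α α ℂ} (hX : X.IsHermitian) :
    star (hX.eigenvectorUnitary : Matrix α α ℂ) * X * (hX.eigenvectorUnitary : Matrix α α ℂ) =
      diagonal (fun i => (hX.eigenvalues i : ℂ)) := by
  set U := (hX.eigenvectorUnitary : Matrix α α ℂ) with hU
  have hUU' : star U * U = 1 := Unitary.coe_star_mul_self _
  have h1 : X = U * diagonal (RCLike.ofReal ∘ hX.eigenvalues) * star U := by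
    have := hX.spectral_theorem
    rwa [Unitary.conjStarAlgAut_apply] at this
  calc star U * X * U = star U * (U * diagonal (RCLike.ofReal ∘ hX.eigenvalues) * star U) * U := by
        rw [← h1]
    _ = (star U * U) * diagonal (RCLike.ofReal ∘ hX.eigenvalues) * (star U * U) := by
        simp only [Matrix.mul_assoc]
    _ = _ := by rw [hUU', Matrix.one_mul, Matrix.mul_one]; rfl

/-- Superadditivity tool: if `Y ≥ X₁ ⊗ 1 + 1 ⊗ X₂` then `tr e^{X₁} tr e^{X₂} ≤ tr e^Y`. -/
theorem trace_exp_prod_le (e : α × β ≃ γ) {X₁ : Matrix α α ℂ} {X₂ : Matrix β β ℂ}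
    {Y : Matrix γ γ ℂ} (h₁ : X₁.IsHermitian) (h₂ : X₂.IsHermitian) (hY : Y.IsHermitian)
    (hP : (Y.submatrix e e - (X₁ ⊗ₖ (1 : Matrix β β ℂ) + (1 : Matrix α α ℂ) ⊗ₖ X₂)).PosSemidef) :
    (trace (NormedSpace.exp X₁)).re * (trace (NormedSpace.exp X₂)).re ≤
      (trace (NormedSpace.exp Y)).re := by
  set U₁ := (h₁.eigenvectorUnitary : Matrix α α ℂ) with hU₁
  set U₂ := (h₂.eigenvectorUnitary : Matrix β β ℂ) with hU₂
  have hUU₁ : star U₁ * U₁ = 1 := Unitary.coe_star_mul_self _
  have hUU₂ : star U₂ * U₂ = 1 := Unitary.coe_star_mul_self _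
  set W := U₁ ⊗ₖ U₂ with hW
  have hstarW : star W = star U₁ ⊗ₖ star U₂ := by
    rw [hW, Matrix.star_eq_conjTranspose, Matrix.conjTranspose_kronecker]; rfl
  have hWW : star W * W = 1 := by
    rw [hstarW, hW, ← Matrix.mul_kronecker_mul, hUU₁, hUU₂, Matrix.one_kronecker_one]
  set V := W.submatrix e.symm e.symm with hV
  have hVV : star V * V = 1 := by
    rw [hV, Matrix.star_eq_conjTranspose, Matrix.conjTranspose_submatrix,
      Matrix.submatrix_mul_equiv, ← Matrix.star_eq_conjTranspose, hWW, Matrix.submatrix_one_equiv]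
  have hp := peierls hY hVV
  refine le_trans ?_ hp
  rw [← Equiv.sum_comp e (fun g => Real.exp (((star V * Y * V) g g).re))]
  have key : ∀ p : α × β, h₁.eigenvalues p.1 + h₂.eigenvalues p.2 ≤
      ((star V * Y * V) (e p) (e p)).re := by
    intro p
    have e1 : (star V * Y * V) (e p) (e p) = (star W * Y.submatrix e e * W) p p := by
      have : (star V * Y * V).submatrix e e = star W * Y.submatrix e e * W := by
        rw [← Matrix.submatrix_mul_equiv (star V * Y) V e e e,
          ← Matrix.submatrix_mul_equiv (star V) Y e e e]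
        congr 2
        · ext i j; simp [hV]
        · ext i j; simp [hV]
      rw [← this]; rfl
    rw [e1]
    have e2 : star W * Y.submatrix e e * W =
        star W * (Y.submatrix e e - (X₁ ⊗ₖ (1 : Matrix β β ℂ) + (1 : Matrix α α ℂ) ⊗ₖ X₂)) * W +
          (diagonal (fun i => (h₁.eigenvalues i : ℂ)) ⊗ₖ (1 : Matrix β β ℂ) +
            (1 : Matrix α α ℂ) ⊗ₖ diagonal (fun i => (h₂.eigenvalues i : ℂ))) := by
      have e3 : star W * (X₁ ⊗ₖ (1 : Matrix β β ℂ) + (1 : Matrix α α ℂ) ⊗ₖ X₂) * W =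
          diagonal (fun i => (h₁.eigenvalues i : ℂ)) ⊗ₖ (1 : Matrix β β ℂ) +
            (1 : Matrix α α ℂ) ⊗ₖ diagonal (fun i => (h₂.eigenvalues i : ℂ)) := by
        rw [Matrix.mul_add, Matrix.add_mul, hstarW, hW, ← Matrix.mul_kronecker_mul,
          ← Matrix.mul_kronecker_mul, ← Matrix.mul_kronecker_mul, ← Matrix.mul_kronecker_mul,
          Matrix.mul_one, Matrix.mul_one, hUU₁, hUU₂, diag_conj_eigen h₁, diag_conj_eigen h₂]
      rw [← e3, ← Matrix.add_mul, ← Matrix.mul_add, sub_add_cancel]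
    rw [e2]
    have e4 : 0 ≤ ((star W * (Y.submatrix e e -
        (X₁ ⊗ₖ (1 : Matrix β β ℂ) + (1 : Matrix α α ℂ) ⊗ₖ X₂)) * W) p p).re := by
      have h5 := hP.conjTranspose_mul_mul_same W
      have h6 := h5.diag_nonneg (i := p)
      exact (Complex.le_def.mp h6).1
    rw [Matrix.add_apply, Complex.add_re]
    have e5 : (((diagonal (fun i => (h₁.eigenvalues i : ℂ)) ⊗ₖ (1 : Matrix β β ℂ) +
            (1 : Matrix α α ℂ) ⊗ₖ diagonal (fun i => (h₂.eigenvalues i : ℂ)))) p p).re =
            h₁.eigenvalues p.1 + h₂.eigenvalues p.2 := by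
      simp [Matrix.add_apply, Matrix.kroneckerMap_apply]
    rw [e5]
    linarith
  calc (trace (NormedSpace.exp X₁)).re * (trace (NormedSpace.exp X₂)).re
      = ∑ p : α × β, Real.exp (h₁.eigenvalues p.1 + h₂.eigenvalues p.2) := by
        rw [trace_exp_re h₁, trace_exp_re h₂, Finset.sum_mul_sum, Fintype.sum_prod_type]
        simp_rw [Real.exp_add]
    _ ≤ _ := Finset.sum_le_sum fun p _ => Real.exp_le_exp.mpr (key p)

/-- Invariance of `tr e^X` under relabelling. -/
theorem trace_exp_submatrix (e : α ≃ β) (Y : Matrix β β ℂ) :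
    trace (NormedSpace.exp (Y.submatrix e e)) = trace (NormedSpace.exp Y) := by
  rw [exp_submatrix_equiv]
  simp only [Matrix.trace, Matrix.diag_apply, Matrix.submatrix_apply]
  exact Equiv.sum_comp e (fun i => NormedSpace.exp Y i i)

/-- A Hermitian matrix is bounded above by a multiple of the identity. -/
theorem exists_upper_bound {X : Matrix α α ℂ} (hX : X.IsHermitian) :
    ∃ c : ℝ, 0 ≤ c ∧ ((c : ℂ) • (1 : Matrix α α ℂ) - X).PosSemidef := by
  refine ⟨∑ i, |hX.eigenvalues i|, Finset.sum_nonneg fun i _ => abs_nonneg _, ?_⟩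
  set c := ∑ i, |hX.eigenvalues i| with hc
  set U := (hX.eigenvectorUnitary : Matrix α α ℂ) with hU
  have hUU : U * star U = 1 := Unitary.coe_mul_star_self _
  have h1 : X = U * diagonal (RCLike.ofReal ∘ hX.eigenvalues) * star U := by
    have := hX.spectral_theorem
    rwa [Unitary.conjStarAlgAut_apply] at this
  have h2 : (c : ℂ) • (1 : Matrix α α ℂ) - X =
      U * diagonal (fun i => ((c - hX.eigenvalues i : ℝ) : ℂ)) * Uᴴ := by
    have h3 : diagonal (fun i => ((c - hX.eigenvalues i : ℝ) : ℂ)) =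
        (c : ℂ) • (1 : Matrix α α ℂ) - diagonal (RCLike.ofReal ∘ hX.eigenvalues) := by
      ext i j
      by_cases hij : i = j
      · subst hij; simp
      · simp [hij]
    rw [h3, Matrix.mul_sub, Matrix.sub_mul, ← Matrix.star_eq_conjTranspose, ← h1,
      Matrix.mul_smul, Matrix.smul_mul, Matrix.mul_one, hUU]
  rw [h2]
  refine Matrix.PosSemidef.mul_mul_conjTranspose_same ?_ U
  refine Matrix.PosSemidef.diagonal ?_
  intro i
  simp only [Pi.zero_apply]
  rw [Complex.zero_le_real]
  have : |hX.eigenvalues i| ≤ c := Finset.single_le_sum (f := fun i => |hX.eigenvalues i|)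
    (fun i _ => abs_nonneg _) (Finset.mem_univ i)
  linarith [le_abs_self (hX.eigenvalues i)]

end Vale.Agent.P361
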